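import Vale.Agent.P290.TwA
import Vale.Agent.P290.Step

/-! P290 CjA: approximability passes through the untwisting maps in both directions. -/

namespace Vale.Agent.P290

open scoped Manifold ContDiff Topology LinearAlgebra.Projectivization
open Set Filter Metric Function

noncomputable section

variable {X X' : Type*} [MetricSpace X] [ChartedSpace C2 X] [IsManifold 𝓘(ℂ, C2) ω X]
  [MetricSpace X'] [ChartedSpace C2 X'] [IsManifold 𝓘(ℂ, C2) ω X'] {σ : TwoForm X} {π : X → P1}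
  {π' : X' → P1} {c : ℂ}

omit [IsManifold 𝓘(ℂ, C2) ω X] [IsManifold 𝓘(ℂ, C2) ω X'] in
theorem tw_wt (F : Fl σ π) (W : Twist σ π π' c) {α : C2} {x : X} (h : α ⬝ᵥ (π x).rep ≠ 0) :
    π' (wt F W α x) = π x ∧ tw F W α (wt F W α x) = x := by
  obtain ⟨a1, -, a3, a4⟩ := twm_nrm h
  by_cases h0 : nrm π α x 0 ≠ 0
  · have e0 := F.fib (-(c * α 1 / nrm π α x 0)) a1
    obtain ⟨-, b1, b2⟩ := W.hχ 0 (F.Φ x (nrm π α x) (-(c * α 1 / nrm π α x 0)))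
      (by rw [e0]; exact a3 0 h0)
    have e1 : π' (wt F W α x) = π x := by rw [wt, if_pos h0, b1, e0]
    refine ⟨e1, ?_⟩
    rw [tw, twm_congr α e1, if_pos h0, wt, if_pos h0, b2, F.add _ _ a1, neg_add_cancel, F.zero a1]
  · have e0 := F.fib (c * α 0 / nrm π α x 1) a1
    obtain ⟨-, b1, b2⟩ := W.hχ 1 (F.Φ x (nrm π α x) (c * α 0 / nrm π α x 1))
      (by rw [e0]; exact a3 1 (a4 h0))
    have e1 : π' (wt F W α x) = π x := by rw [wt, if_neg h0, b1, e0]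
    refine ⟨e1, ?_⟩
    rw [tw, twm_congr α e1, if_neg h0, wt, if_neg h0, b2, F.add _ _ a1, add_neg_cancel, F.zero a1]

omit [IsManifold 𝓘(ℂ, C2) ω X] [IsManifold 𝓘(ℂ, C2) ω X'] in
theorem tw_change (F : Fl σ π) (W : Twist σ π π' c) {α β e : C2} {x : X'} (he : On (π' x) e)
    (hβ : β ⬝ᵥ e = 1) (hα : α ⬝ᵥ e ≠ 0) :
    tw F W α x = F.Φ (tw F W β x) e (-(c * (β 1 * α 0 - β 0 * α 1) / (α ⬝ᵥ e))) := by
  obtain ⟨e1, e2⟩ := wt_tw F W ((twa_dot he).1 hα)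
  have he' : On (π (tw F W α x)) e := e1 ▸ he
  have e3 := wt_change F W he' hβ hα
  rw [e2] at e3
  have e4 := (tw_wt F W (α := β) (x := F.Φ (tw F W α x) e
    (c * (β 1 * α 0 - β 0 * α 1) / (α ⬝ᵥ e))) (by
      rw [F.fib _ he']
      exact (twa_dot he').1 (by rw [hβ]; exact one_ne_zero))).2
  rw [← e3] at e4
  rw [e4, F.add _ _ he', add_neg_cancel, F.zero he']

variable {ι : Type} [Fintype ι] {K Q : Set (Cn ι)}

theorem cja_kappa {α β A : Cn ι → C2} (hα : AnalyticOnNhd ℂ α K) (hβ : AnalyticOnNhd ℂ β K)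
    (hA : AnalyticOnNhd ℂ A K) (h : ∀ z ∈ K, α z ⬝ᵥ A z ≠ 0) (c : ℂ) :
    AnalyticOnNhd ℂ (fun z => c * (β z 1 * α z 0 - β z 0 * α z 1) / (α z ⬝ᵥ A z)) K := by
  intro z hz
  have b1 := analyticAt_pi_iff.1 (hα z hz)
  have b2 := analyticAt_pi_iff.1 (hβ z hz)
  exact (analyticAt_const.fun_mul (((b2 1).fun_mul (b1 0)).fun_sub
    ((b2 0).fun_mul (b1 1)))).fun_div (twa_dotan hα hA z hz) (h z hz)

theorem appr_wt (hπ : HolP π) (hπ' : HolP π') (F : Fl σ π) (W : Twist σ π π' c)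
    (hK : IsCompact K) (hc : Convex ℝ K) (hQ : IsCompact Q) (hcQ : Convex ℝ Q) (hKQ : K ⊆ Q)
    {g : Cn ι → X} (hgK : HolOn g K) {α : Cn ι → C2} (hα : AnalyticOnNhd ℂ α K)
    (h2 : ∀ z ∈ K, α z ⬝ᵥ (π (g z)).rep ≠ 0) (h : Appr K Q g) :
    Appr K Q fun z => wt F W (α z) (g z) := by
  intro ε hε
  have hloc := fun z hz => twa_loc hπ hπ' F W 0 (hα z hz) (h2 z hz)
  have hg : ∀ z ∈ K, ContinuousAt (fun z => (g z, (0 : ℂ))) z := fun z hz =>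
    (ContMDiffAt.continuousAt (hgK z hz)).prodMk continuousAt_const
  obtain ⟨η₁, hη₁, hu⟩ := unif hK hg (fun z hz => (hloc z hz).1) hε
  obtain ⟨η₂, hη₂, ht⟩ := tube hK hg (fun z hz => (hloc z hz).2)
  have hη : 0 < min η₁ η₂ := lt_min hη₁ hη₂
  obtain ⟨G, hG, hd⟩ := h _ hη
  obtain ⟨A, hA⟩ := lift_comp hπ hQ hcQ hG
  obtain ⟨β, hβ, hβA⟩ := exists_alpha hQ hcQ hA
  have hAon : ∀ z ∈ Q, On (π (G z)) (A z) := fun z hz => hA.2.self_of_nhdsSet z hz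
  have hβ1 : ∀ z ∈ Q, β z ⬝ᵥ A z = 1 := fun z hz => hβA.self_of_nhdsSet z hz
  have hc0 : ∀ z ∈ K, α z ⬝ᵥ A z ≠ 0 := fun z hz => by
    refine (twa_dot (hAon z (hKQ hz))).2 (ht z hz (G z, 0) ?_)
    rw [Prod.dist_eq, dist_self]
    exact max_lt ((hd z hz).trans_le (min_le_right _ _)) hη₂
  have hl : AnalyticOnNhd ℂ (fun z => α z ⬝ᵥ A z) K := twa_dotan hα (hA.1.mono hKQ)
  obtain ⟨B, hB⟩ := hK.exists_bound_of_continuousOn (hl.fun_pow 2).continuousOn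
  have hB1 : 0 < |B| + 1 := by positivity
  obtain ⟨θ, hθ, hθd⟩ := runge hK hc (cja_kappa hα (hβ.mono hKQ) (hA.1.mono hKQ) hc0 c)
    (div_pos hη₁ hB1)
  refine ⟨fun z => wt F W (β z) (F.Φ (G z) (A z) (θ z)), fun z hz => ?_, fun z hz => ?_⟩
  · refine wt_hol hπ hπ' F W (hol_iff.2 (hβ z hz)) (F.hol_comp (hG z hz) (hol_iff.2 (hA.1 z hz))
      (hol_iff.2 (hθ z (mem_univ z))) (hA.2.filter_mono (nhds_le_nhdsSet hz))) ?_
    rw [F.fib _ (hAon z hz)]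
    refine (twa_dot (hAon z hz)).1 ?_
    rw [hβ1 z hz]
    exact one_ne_zero
  · have hon := hAon z (hKQ hz)
    obtain ⟨e1, e2⟩ := nrm_eq hon (hc0 z hz)
    set κ := c * (β z 1 * α z 0 - β z 0 * α z 1) / (α z ⬝ᵥ A z) with hκ
    have e3 : A z = (α z ⬝ᵥ A z) • nrm π (α z) (G z) := by
      rw [e1, smul_inv_smul₀ (hc0 z hz)]
    have e4 : F.Φ (G z) (A z) (θ z - κ) =
        F.Φ (G z) (nrm π (α z) (G z)) ((α z ⬝ᵥ A z) ^ 2 * (θ z - κ)) := by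
      rw [← F.smul _ _ e2 (hc0 z hz), ← e3]
    have e5 : dist ((α z ⬝ᵥ A z) ^ 2 * (θ z - κ)) 0 < η₁ := by
      have e7 := (lt_div_iff₀ hB1).1 (hθd z hz)
      have e8 : ‖(α z ⬝ᵥ A z) ^ 2‖ ≤ |B| + 1 := by
        linarith [hB z hz, le_abs_self B]
      rw [dist_zero_right, norm_mul, mul_comm]
      exact (mul_le_mul_of_nonneg_left e8 (norm_nonneg _)).trans_lt e7
    have e9 := hu z hz (G z, (α z ⬝ᵥ A z) ^ 2 * (θ z - κ)) (by
      rw [Prod.dist_eq]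
      exact max_lt ((hd z hz).trans_le (min_le_left _ _)) e5)
    have e10 := wt_change F W (x := F.Φ (G z) (A z) (θ z - κ))
      (by rw [F.fib _ hon]; exact hon) (hβ1 z (hKQ hz)) (hc0 z hz)
    rw [F.add _ _ hon, ← hκ, sub_add_cancel] at e10
    simp only at e9
    rw [← e4, e10, F.zero (nrm_eq (on_rep _) (h2 z hz)).2] at e9
    exact e9

theorem cja_loc (hπ : HolP π) (hπ' : HolP π') (F : Fl σ π) (W : Twist σ π π' c)
    {α : Cn ι → C2} {z : Cn ι} {x : X'} (hα : AnalyticAt ℂ α z) (h : α z ⬝ᵥ (π' x).rep ≠ 0) :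
    ContinuousAt (fun q : Cn ι × X' => tw F W (α q.1) q.2) (z, x) ∧
      ∀ᶠ q : Cn ι × X' in 𝓝 (z, x), α q.1 ⬝ᵥ (π' q.2).rep ≠ 0 := by
  have h1 : ContMDiffAt (IL (Cn ι)) 𝓘(ℂ, C2) ω (fun q : Cn ι × X' => α q.1) (z, x) :=
    ContMDiffAt.comp (z, x) (g := α) (f := Prod.fst) (hol_iff.2 hα) contMDiffAt_fst
  exact ⟨(tw_hol hπ hπ' F W h1 contMDiffAt_snd h).continuousAt,
    (nrm_hol hπ' h1 contMDiffAt_snd h).2⟩

theorem appr_tw (hπ : HolP π) (hπ' : HolP π') (F : Fl σ π) (W : Twist σ π π' c)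
    (hK : IsCompact K) (hc : Convex ℝ K) (hQ : IsCompact Q) (hcQ : Convex ℝ Q) (hKQ : K ⊆ Q)
    {f : Cn ι → X'} (hf : HolOn f K) {α : Cn ι → C2} (hα : AnalyticOnNhd ℂ α K)
    (h2 : ∀ z ∈ K, α z ⬝ᵥ (π' (f z)).rep ≠ 0) (h : Appr K Q f) :
    Appr K Q fun z => tw F W (α z) (f z) := by
  intro ε hε
  have hloc := fun z hz => cja_loc hπ hπ' F W (hα z hz) (h2 z hz)
  have hg : ∀ z ∈ K, ContinuousAt f z := fun z hz => ContMDiffAt.continuousAt (hf z hz)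
  obtain ⟨η₁, hη₁, hu⟩ := unif hK hg (fun z hz => (hloc z hz).1) (half_pos hε)
  obtain ⟨η₂, hη₂, ht⟩ := tube hK hg (fun z hz => (hloc z hz).2)
  obtain ⟨G, hG, hd⟩ := h _ (lt_min hη₁ hη₂)
  obtain ⟨A, hA⟩ := lift_comp hπ' hQ hcQ hG
  obtain ⟨β, hβ, hβA⟩ := exists_alpha hQ hcQ hA
  have hAon : ∀ z ∈ Q, On (π' (G z)) (A z) := fun z hz => hA.2.self_of_nhdsSet z hz
  have hβ1 : ∀ z ∈ Q, β z ⬝ᵥ A z = 1 := fun z hz => hβA.self_of_nhdsSet z hz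
  have hc0 : ∀ z ∈ K, α z ⬝ᵥ A z ≠ 0 := fun z hz =>
    (twa_dot (hAon z (hKQ hz))).2 (ht z hz (G z) ((hd z hz).trans_le (min_le_right _ _)))
  have hG0 : HolOn (fun z => tw F W (β z) (G z)) Q := fun z hz =>
    tw_hol hπ hπ' F W (hol_iff.2 (hβ z hz)) (hG z hz)
      ((twa_dot (hAon z hz)).1 (by rw [hβ1 z hz]; exact one_ne_zero))
  have hL : LiftOn (fun z => π (tw F W (β z) (G z))) A K := by
    refine ⟨hA.1.mono hKQ, ((hA.2.and hβA).filter_mono (nhdsSet_mono hKQ)).mono fun z hz => ?_⟩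
    show On (π (tw F W (β z) (G z))) (A z)
    rw [(wt_tw F W ((twa_dot hz.1).1 (by rw [hz.2]; exact one_ne_zero))).1]
    exact hz.1
  obtain ⟨G', hG', hd'⟩ := step hπ F hK hc hQ hcQ hKQ (fun z hz => hG0 z (hKQ hz)) hL
    (cja_kappa hα (hβ.mono hKQ) (hA.1.mono hKQ) hc0 c).neg
    (fun η hη => ⟨_, hG0, fun z _ => by simpa using hη⟩) _ (half_pos hε)
  refine ⟨G', hG', fun z hz => ?_⟩
  have e1 := hd' z hz
  have e2 := hu z hz (G z) ((hd z hz).trans_le (min_le_left _ _))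
  simp only [Pi.neg_apply] at e1
  rw [← tw_change F W (hAon z (hKQ hz)) (hβ1 z (hKQ hz)) (hc0 z hz)] at e1
  simp only at e2
  linarith [dist_triangle (G' z) (tw F W (α z) (G z)) (tw F W (α z) (f z))]

end

end Vale.Agent.P290
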