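import Vale.Agent.P290.CjA
import Vale.Agent.P290.DomB

/-! P290 CjB: moves on a twist give moves on the surface. -/

namespace Vale.Agent.P290

open scoped Manifold ContDiff Topology LinearAlgebra.Projectivization
open Set Filter Metric Function

noncomputable section

variable {X X' : Type*} [MetricSpace X] [ChartedSpace C2 X] [IsManifold 𝓘(ℂ, C2) ω X]
  [MetricSpace X'] [ChartedSpace C2 X'] [IsManifold 𝓘(ℂ, C2) ω X'] {σ : TwoForm X} {π : X → P1}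
  {π' : X' → P1} {c : ℂ} {ι : Type} [Fintype ι] {K Q : Set (Cn ι)}

theorem cjb_sur (hπ : HolP π) (hπ' : HolP π') (F : Fl σ π) (W : Twist σ π π' c) {α : C2}
    {x : X'} (h : α ⬝ᵥ (π' x).rep ≠ 0) :
    Hol C2 C2 (tw F W α) x ∧ Hol C2 C2 (wt F W α) (tw F W α x) ∧
      Surjective (md C2 C2 (tw F W α) x) ∧ Surjective (md C2 C2 (wt F W α) (tw F W α x)) := by
  have hu : Hol C2 C2 (tw F W α) x :=
    tw_hol (I := 𝓘(ℂ, C2)) hπ hπ' F W contMDiffAt_const contMDiffAt_id h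
  have hw : Hol C2 C2 (wt F W α) (tw F W α x) :=
    wt_hol (I := 𝓘(ℂ, C2)) hπ hπ' F W contMDiffAt_const contMDiffAt_id
      ((wt_tw F W h).1 ▸ h)
  have e : (fun y => wt F W α (tw F W α y)) =ᶠ[𝓝 x] id :=
    (nrm_hol (I := 𝓘(ℂ, C2)) hπ' contMDiffAt_const contMDiffAt_id h).2.mono
      fun y hy => (wt_tw F W hy).2
  have e2 : ∀ v, md C2 C2 (wt F W α) (tw F W α x) (md C2 C2 (tw F W α) x v) = v := fun v => by
    rw [← comp_md hw hu rfl v]
    exact DFunLike.congr_fun (e.mfderiv_eq.trans mfderiv_id) v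
  refine ⟨hu, hw, (LinearMap.injective_iff_surjective
    (f := (md C2 C2 (tw F W α) x).toLinearMap)).1 (LeftInverse.injective e2), fun v => ⟨_, e2 v⟩⟩

theorem conj (hπ : HolP π) (hπ' : HolP π') (F : Fl σ π) (W : Twist σ π π' c)
    (hK : IsCompact K) (hc : Convex ℝ K) (hQ : IsCompact Q) (hcQ : Convex ℝ Q) (hKQ : K ⊆ Q)
    {f : Cn ι → X'} (hf : HolOn f K) {α : Cn ι → C2} (hα : AnalyticOnNhd ℂ α K)
    (h1 : ∀ z ∈ K, α z ⬝ᵥ (π' (f z)).rep ≠ 0) {T : Type} [NormedAddCommGroup T] [NormedSpace ℂ T]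
    {M : Cn ι × X × T → X}
    (hM : Tr K Q (fun z => tw F W (α z) (f z)) (fun z => tw F W (α z) (f z)) M) :
    ∃ N : Cn ι × X' × T → X', Tr K Q f f N ∧
      ∀ z ∈ K, Rg (fun z => tw F W (α z) (f z)) M z = ⊤ → Rg f N z = ⊤ := by
  set g : Cn ι → X := fun z => tw F W (α z) (f z) with hg
  have hgK : HolOn g K := fun z hz =>
    tw_hol hπ hπ' F W (hol_iff.2 (hα z hz)) (hf z hz) (h1 z hz)
  have h2 : ∀ z ∈ K, α z ⬝ᵥ (π (g z)).rep ≠ 0 := fun z hz => by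
    rw [hg, (wt_tw F W (h1 z hz)).1]
    exact h1 z hz
  have hv : ∀ z ∈ K, M (z, tw F W (α z) (f z), 0) = tw F W (α z) (f z) := hM.val
  refine ⟨fun q => wt F W (α q.1) (M (q.1, tw F W (α q.1) q.2.1, q.2.2)),
    ⟨fun z hz => ?_, fun z hz => ?_, fun z hz w => ?_, ?_⟩, fun z hz hR => ?_⟩
  · have a1 : ContMDiffAt (I3 (Cn ι) T) 𝓘(ℂ, C2) ω (fun q : Cn ι × X' × T => α q.1)
        (z, f z, 0) :=
      ContMDiffAt.comp (z, f z, 0) (g := α) (f := Prod.fst) (hol_iff.2 (hα z hz)) contMDiffAt_fst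
    refine wt_hol hπ hπ' F W a1 (comp_three (hM.hol z hz) contMDiffAt_fst
      (tw_hol hπ hπ' F W a1 contMDiffAt_snd.fst (h1 z hz)) contMDiffAt_snd.snd rfl) ?_
    simp only [hv z hz]
    exact h2 z hz
  · simp only [hv z hz]
    exact (wt_tw F W (h1 z hz)).2
  · obtain ⟨a1, a2, a3, a4⟩ := cjb_sur hπ hπ' F W (h1 z hz)
    have x2 : Hol C2 C2 (fun x => M (z, x, 0)) (g z) :=
      comp_three (hM.hol z hz) contMDiffAt_const contMDiffAt_id contMDiffAt_const rfl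
    obtain ⟨v, rfl⟩ := a4 w
    obtain ⟨u, rfl⟩ := hM.sur z hz v
    obtain ⟨t, rfl⟩ := a3 u
    refine ⟨t, ?_⟩
    have x3 : Hol C2 C2 (fun x => M (z, tw F W (α z) x, 0)) (f z) :=
      comp_three (hM.hol z hz) contMDiffAt_const a1 contMDiffAt_const rfl
    exact (comp_md a2 x3 (hv z hz) t).trans (congrArg _ (comp_md x2 a1 rfl t))
  · obtain ⟨δ1, p1, q1⟩ := hM.pres
    obtain ⟨δ2, p2, q2⟩ := tube hK (fun z hz => (hgK z hz).continuousAt)
      (W := {q | α q.1 ⬝ᵥ (π q.2).rep ≠ 0}) fun z hz => (nrm_hol (I := IL (Cn ι)) hπ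
        (p := (z, g z)) (α := fun q => α q.1) (g := fun q => q.2)
        (ContMDiffAt.comp _ (hol_iff.2 (hα z hz)) contMDiffAt_fst) contMDiffAt_snd (h2 z hz)).2
    obtain ⟨δ3, p3, q3⟩ := comp_near hK hgK hM p2
    have hloc := fun z hz => cja_loc hπ hπ' F W (hα z hz) (h1 z hz)
    have hfc : ∀ z ∈ K, ContinuousAt f z := fun z hz => ContMDiffAt.continuousAt (hf z hz)
    obtain ⟨η₁, hη₁, hu⟩ := unif hK hfc (fun z hz => (hloc z hz).1) (lt_min p1 p3)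
    obtain ⟨η₂, hη₂, ht⟩ := tube hK hfc (fun z hz => (hloc z hz).2)
    refine ⟨min (min η₁ η₂) (min δ1 δ3), lt_min (lt_min hη₁ hη₂) (lt_min p1 p3),
      fun k τ hk hτ hd ha => ?_⟩
    simp only [lt_min_iff] at hd hu
    have b1 : ∀ z ∈ K, α z ⬝ᵥ (π' (k z)).rep ≠ 0 := fun z hz => ht z hz _ (hd z hz).1.1.2
    have b2 : HolOn (fun z => tw F W (α z) (k z)) K := fun z hz =>
      tw_hol hπ hπ' F W (hol_iff.2 (hα z hz)) (hk z hz) (b1 z hz)
    have b3 := fun z hz => hu z hz (k z) (hd z hz).1.1.1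
    have r := fun z hz => q3 z hz (tw F W (α z) (k z)) (τ z) (b3 z hz).2 (hd z hz).2.2.2
    refine appr_wt hπ hπ' F W hK hc hQ hcQ hKQ
      (g := fun z => M (z, tw F W (α z) (k z), τ z)) (fun z hz => ?_) hα
      (fun z hz => q2 z hz _ (r z hz).2)
      (q1 _ τ b2 hτ (fun z hz => ⟨(b3 z hz).1, (hd z hz).2.2.1⟩)
        (appr_tw hπ hπ' F W hK hc hQ hcQ hKQ hk hα b1 ha))
    have l1 : ContMDiffAt 𝓘(ℂ, Cn ι × T) 𝓘(ℂ, Cn ι) ω Prod.fst (z, τ z) :=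
      (ContinuousLinearMap.fst ℂ (Cn ι) T).contMDiff.contMDiffAt
    have l2 : ContMDiffAt 𝓘(ℂ, Cn ι × T) 𝓘(ℂ, T) ω Prod.snd (z, τ z) :=
      (ContinuousLinearMap.snd ℂ (Cn ι) T).contMDiff.contMDiffAt
    exact comp_an (G := fun q : Cn ι × T => M (q.1, tw F W (α q.1) (k q.1), q.2))
      (p := fun z => (z, τ z))
      (comp_three (r z hz).1 l1 (ContMDiffAt.comp (g := fun z => tw F W (α z) (k z)) _
        (b2 z hz) l1) l2 rfl) (analyticAt_id.prod (hτ z hz))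
  · obtain ⟨-, a2, -, a4⟩ := cjb_sur hπ hπ' F W (h1 z hz)
    have t1 : Hol T C2 (fun t => M (z, g z, t)) 0 :=
      comp_three (hM.hol z hz) contMDiffAt_const contMDiffAt_const contMDiffAt_id rfl
    refine Submodule.eq_top_iff'.2 fun w => ?_
    obtain ⟨v, rfl⟩ := a4 w
    obtain ⟨u, rfl⟩ := LinearMap.range_eq_top.1 hR v
    exact ⟨u, comp_md a2 t1 (hv z hz) u⟩

end

end Vale.Agent.P290
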