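import Vale.Agent.P290.Fib
import Vale.Agent.P290.DomB
import Vale.Agent.P290.Sol4
import Vale.Agent.P290.Hom

/-!
P290 Main. Helper lemma names start with main_.
Assembly.
-/

namespace Vale.Agent.P290

open scoped Manifold ContDiff Topology LinearAlgebra.Projectivization
open Set Filter Metric Function

noncomputable section

variable {X : Type*} [MetricSpace X] [ChartedSpace C2 X] [IsManifold 𝓘(ℂ, C2) ω X]

theorem appr_all [CompactSpace X] (σ : TwoForm X) {k : ℕ} {π : Fin k → X → P1}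
    (hπ : ∀ j, HolP (π j)) (hfin : ∀ x, {y | ∀ j, π j y = π j x}.Finite)
    (hreg : ∀ x, ∃ j, RegP (π j) x) {ι : Type} [Fintype ι] {K Q : Set (Cn ι)} (hK : IsCompact K)
    (hc : Convex ℝ K) (hQ : IsCompact Q) (hcQ : Convex ℝ Q) (hKQ : K ⊆ Q) {f : Cn ι → X}
    (hf : HolOn f K) : Appr K Q f := by
  have F : ∀ j, Fl σ (π j) := fun j => (exists_fl σ (hπ j)).some
  refine appr_of_open hK hc (fun f hf => ?_) hf
  obtain ⟨T, _, _, _, M, hM, hR⟩ := dom_all hπ F hfin hreg hK hc hQ hcQ hKQ hf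
  obtain ⟨η, hη, hp⟩ := hM.pres
  obtain ⟨δ, hδ, hs⟩ := solve σ hK hc (hM.hol_S hf)
    (fun z hz => LinearMap.range_eq_top.1 (hR z hz)) hη
  refine ⟨δ, hδ, fun g hg hd ha ε hε => ?_⟩
  obtain ⟨τ, hτ, h2⟩ := hs g hg fun z hz => by rw [hM.val z hz]; exact hd z hz
  obtain ⟨G, hG, h3⟩ := hp f τ hf hτ (fun z hz => ⟨by simpa using hη, (h2 z hz).1⟩) ha ε hε
  exact ⟨G, hG, fun z hz => by rw [← (h2 z hz).2]; exact h3 z hz⟩

theorem oka [CompactSpace X] (σ : TwoForm X) {k : ℕ} {π : Fin k → X → P1}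
    (hπ : ∀ j, HolP (π j)) (hfin : ∀ x, {y | ∀ j, π j y = π j x}.Finite)
    (hreg : ∀ x, ∃ j, RegP (π j) x) : Oka X :=
  oka_of_appr fun _ _ _ hK hc hQ hcQ hKQ _ hf => appr_all σ hπ hfin hreg hK hc hQ hcQ hKQ hf

end

end Vale.Agent.P290
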