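import Vale.Agent.P290.CjB
import Vale.Agent.P290.Main

/-! P290 CjC: pointwise domination, and the Oka property from it. -/

namespace Vale.Agent.P290

open scoped Manifold ContDiff Topology LinearAlgebra.Projectivization
open Set Filter Metric Function

noncomputable section

/-- Finitely many maps to the line, with finite joint fibre through `x`, one regular at `x`. -/
def Good {X : Type*} [TopologicalSpace X] [ChartedSpace C2 X] (x : X) : Prop :=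
  ∃ (k : ℕ) (ρ : Fin k → X → P1), (∀ l, HolP (ρ l)) ∧ {y | ∀ l, ρ l y = ρ l x}.Finite ∧
    ∃ l, RegP (ρ l) x

variable {X X' : Type*} [MetricSpace X] [ChartedSpace C2 X] [IsManifold 𝓘(ℂ, C2) ω X]
  [MetricSpace X'] [ChartedSpace C2 X'] [IsManifold 𝓘(ℂ, C2) ω X'] {ι : Type} [Fintype ι]
  {K Q : Set (Cn ι)}

/-- There is a family of moves at `f` that dominates at `z`. -/
def DomAt (K Q : Set (Cn ι)) (f : Cn ι → X) (z : Cn ι) : Prop :=
  ∃ (T : Type) (_ : NormedAddCommGroup T) (_ : NormedSpace ℂ T) (_ : FiniteDimensional ℂ T)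
    (M : Cn ι × X × T → X), Tr K Q f f M ∧ Rg f M z = ⊤

theorem dom_shift {σ : TwoForm X} {π : X → P1} (hπ : HolP π) (F : Fl σ π) (hK : IsCompact K)
    (hc : Convex ℝ K) (hQ : IsCompact Q) (hcQ : Convex ℝ Q) (hKQ : K ⊆ Q) {f : Cn ι → X}
    (hf : HolOn f K) {a : Cn ι → C2} (ha : LiftOn (fun z => π (f z)) a K) (s : ℂ) {z0 : Cn ι}
    (hz : z0 ∈ K) (h : DomAt K Q (fun z => F.Φ (f z) (a z) s) z0) : DomAt K Q f z0 := by
  obtain ⟨T, i1, i2, i3, Mb, hMb, hR⟩ := h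
  have ha1 : ∀ z ∈ K, On (π (f z)) (a z) := fun z hz => ha.2.self_of_nhdsSet z hz
  set g : Cn ι → X := fun z => F.Φ (f z) (a z) s with hg
  have hgh : HolOn g K := fun z hz =>
    F.hol_comp (τ := fun _ => s) (hf z hz) (hol_iff.2 (ha.1 z hz)) contMDiffAt_const
      ((eventually_nhdsSet_iff_forall.1 ha.2) z hz)
  have hag : LiftOn (fun z => π (g z)) a K := by
    refine ⟨ha.1, ha.2.mono fun z hz => ?_⟩
    show On (π (F.Φ (f z) (a z) s)) (a z)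
    rw [F.fib s hz]
    exact hz
  obtain ⟨Ma, hMa, -⟩ := basic hπ F hK hc hQ hcQ hKQ hf ha s
  obtain ⟨Mc, hMc, -⟩ := basic hπ F hK hc hQ hcQ hKQ hgh hag (-s)
  have hMc2 : Tr K Q g f Mc := hMc.congr fun z hz => by
    show F.Φ (F.Φ (f z) (a z) s) (a z) (-s) = f z
    rw [F.add s (-s) (ha1 z hz), add_neg_cancel, F.zero (ha1 z hz)]
  obtain ⟨M1, hM1, hM1'⟩ := Tr.comp hK hf hMa hMb
  obtain ⟨M2, hM2, hM2'⟩ := Tr.comp hK hf hM1 hMc2
  refine ⟨_, inferInstance, inferInstance, inferInstance, M2, hM2, ?_⟩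
  have htop : Rg f M1 z0 = ⊤ := top_le_iff.1 (hR ▸ (hM1' z0 hz).1)
  rw [eq_top_iff]
  intro w _
  obtain ⟨v, rfl⟩ := hMc2.sur z0 hz w
  exact (hM2' z0 hz).2 v (htop ▸ Submodule.mem_top)

theorem dom_good [CompactSpace X] (σ : TwoForm X) (hK : IsCompact K) (hc : Convex ℝ K)
    (hQ : IsCompact Q) (hcQ : Convex ℝ Q) (hKQ : K ⊆ Q) {f : Cn ι → X} (hf : HolOn f K)
    {z0 : Cn ι} (hz : z0 ∈ K) (h : Good (f z0)) : DomAt K Q f z0 := by
  obtain ⟨k, π, hπ, hfin, j, hj⟩ := h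
  have F : ∀ j, Fl σ (π j) := fun j => (exists_fl σ (hπ j)).some
  obtain ⟨a, ha⟩ := lift_comp (hπ j) hK hc hf
  have ha1 : ∀ z ∈ K, On (π j (f z)) (a z) := fun z hz => ha.2.self_of_nhdsSet z hz
  obtain ⟨s, i, hs⟩ := access hπ F hfin hj (ha1 z0 hz)
  set g : Cn ι → X := fun z => (F j).Φ (f z) (a z) s with hg
  have hgh : HolOn g K := fun z hz =>
    (F j).hol_comp (τ := fun _ => s) (hf z hz) (hol_iff.2 (ha.1 z hz)) contMDiffAt_const
      ((eventually_nhdsSet_iff_forall.1 ha.2) z hz)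
  have hag : LiftOn (fun z => π j (g z)) a K := by
    refine ⟨ha.1, ha.2.mono fun z hz => ?_⟩
    show On (π j ((F j).Φ (f z) (a z) s)) (a z)
    rw [(F j).fib s hz]
    exact hz
  have hag1 : ∀ z ∈ K, On (π j (g z)) (a z) := fun z hz => hag.2.self_of_nhdsSet z hz
  obtain ⟨b, hb⟩ := lift_comp (hπ i) hK hc hgh
  have hb1 : ∀ z ∈ K, On (π i (g z)) (b z) := fun z hz => hb.2.self_of_nhdsSet z hz
  refine dom_shift (hπ j) (F j) hK hc hQ hcQ hKQ hf ha s hz ?_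
  obtain ⟨Ma, hMa, hMa'⟩ := basic (hπ j) (F j) hK hc hQ hcQ hKQ hgh hag 0
  obtain ⟨Mb, hMb, hMb'⟩ := basic (hπ i) (F i) hK hc hQ hcQ hKQ hgh hb 0
  have hMa2 : Tr K Q g g Ma := hMa.congr fun z hz => (F j).zero (hag1 z hz)
  have hMb2 : Tr K Q g g Mb := hMb.congr fun z hz => (F i).zero (hb1 z hz)
  obtain ⟨M1, hM1, hM1'⟩ := Tr.comp hK hgh hMa2 hMb2
  refine ⟨_, inferInstance, inferInstance, inferInstance, M1, hM1, ?_⟩
  have hu : (F j).V (g z0) (a z0) ∈ Rg g M1 z0 := by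
    have h1 := (hM1' z0 hz).2 _ (hMa' z0 hz).1
    rwa [(hMb' z0 hz).2 rfl, (F j).zero (hag1 z0 hz)] at h1
  have hv : (F i).V (g z0) (b z0) ∈ Rg g M1 z0 := by
    have h1 := (hMb' z0 hz).1
    rw [(F i).zero (hb1 z0 hz)] at h1
    exact (hM1' z0 hz).1 h1
  refine dom_span hu hv fun h0 => hs (b z0) (hb1 z0 hz) ?_
  show σ.σ (g z0) ((F j).V (g z0) (a z0)) ((F i).V (g z0) (b z0)) = 0
  rw [sig_eq, h0, mul_zero]

theorem dom_tw [CompactSpace X] {σ : TwoForm X} {π : X → P1} {π' : X' → P1} {c : ℂ}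
    (hπ : HolP π) (hπ' : HolP π') (W : Twist σ π π' c) (hK : IsCompact K) (hc : Convex ℝ K)
    (hQ : IsCompact Q) (hcQ : Convex ℝ Q) (hKQ : K ⊆ Q) {f : Cn ι → X'} (hf : HolOn f K)
    {z0 : Cn ι} (hz : z0 ∈ K) {i : Fin 2} (hi : (π' (f z0)).rep i ≠ 0)
    (h : Good (W.ψ i (f z0))) : DomAt K Q f z0 := by
  have F : Fl σ π := (exists_fl σ hπ).some
  obtain ⟨a, ha⟩ := lift_comp hπ' hK hc hf
  obtain ⟨α, hα, hαa⟩ := exists_alpha hK hc ha
  have ha1 : ∀ z ∈ K, On (π' (f z)) (a z) := fun z hz => ha.2.self_of_nhdsSet z hz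
  have h0 : ∀ z ∈ K, α z ⬝ᵥ a z = 1 := fun z hz => hαa.self_of_nhdsSet z hz
  have h1 : ∀ z ∈ K, α z ⬝ᵥ (π' (f z)).rep ≠ 0 := fun z hz =>
    (twa_dot (ha1 z hz)).1 (by rw [h0 z hz]; exact one_ne_zero)
  have hgK : HolOn (fun z => tw F W (α z) (f z)) K := fun z hz =>
    tw_hol hπ hπ' F W (hol_iff.2 (hα z hz)) (hf z hz) (h1 z hz)
  have hL : LiftOn (fun z => π (tw F W (α z) (f z))) a K := by
    refine ⟨ha.1, (ha.2.and hαa).mono fun z hz => ?_⟩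
    show On (π (tw F W (α z) (f z))) (a z)
    rw [(wt_tw F W ((twa_dot hz.1).1 (by rw [hz.2]; exact one_ne_zero))).1]
    exact hz.1
  have e1 : nrm π' (α z0) (f z0) = a z0 := by
    rw [(nrm_eq (ha1 z0 hz) (by rw [h0 z0 hz]; exact one_ne_zero)).1, h0 z0 hz, inv_one, one_smul]
  have e2 : On (π (W.ψ i (f z0))) (a z0) := (W.hψ i _ hi).2.1 ▸ ha1 z0 hz
  have e3 := (twh_ne (h1 z0 hz) i).2 hi
  obtain ⟨s, hs⟩ : ∃ s, tw F W (α z0) (f z0) = F.Φ (W.ψ i (f z0)) (a z0) s := by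
    obtain rfl | rfl : i = 0 ∨ i = 1 := by fin_cases i <;> simp
    · exact ⟨_, by rw [tw, if_pos e3, e1]⟩
    · exact ⟨_, by rw [tw_one hπ F W (h1 z0 hz) e3, e1]⟩
  obtain ⟨T, i1, i2, i3, M, hM, hR⟩ : DomAt K Q (fun z => tw F W (α z) (f z)) z0 := by
    refine dom_shift hπ F hK hc hQ hcQ hKQ hgK hL (-s) hz
      (dom_good σ hK hc hQ hcQ hKQ (fun z hz => ?_) hz ?_)
    · exact F.hol_comp (τ := fun _ => -s) (hgK z hz) (hol_iff.2 (ha.1 z hz)) contMDiffAt_const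
        ((eventually_nhdsSet_iff_forall.1 hL.2) z hz)
    · show Good (F.Φ (tw F W (α z0) (f z0)) (a z0) (-s))
      rw [hs, F.add _ _ e2, add_neg_cancel, F.zero e2]
      exact h
  obtain ⟨N, hN, hN'⟩ := conj hπ hπ' F W hK hc hQ hcQ hKQ hf hα h1 hM
  exact ⟨T, i1, i2, i3, N, hN, hN' z0 hz hR⟩

theorem dom_every (hK : IsCompact K) {f : Cn ι → X} (hf : HolOn f K)
    (h : ∀ z ∈ K, DomAt K Q f z) :
    ∃ (T : Type) (_ : NormedAddCommGroup T) (_ : NormedSpace ℂ T) (_ : FiniteDimensional ℂ T)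
      (M : Cn ι × X × T → X), Tr K Q f f M ∧ ∀ z ∈ K, Rg f M z = ⊤ := by
  have key : ∃ (T : Type) (_ : NormedAddCommGroup T) (_ : NormedSpace ℂ T)
      (_ : FiniteDimensional ℂ T) (M : Cn ι × X × T → X),
      Tr K Q f f M ∧ ∀ z ∈ K, z ∈ K → Rg f M z = ⊤ := by
    refine hK.induction_on (p := fun Z => ∃ (T : Type) (_ : NormedAddCommGroup T)
      (_ : NormedSpace ℂ T) (_ : FiniteDimensional ℂ T) (M : Cn ι × X × T → X),
      Tr K Q f f M ∧ ∀ z ∈ Z, z ∈ K → Rg f M z = ⊤) ?_ ?_ ?_ ?_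
    · refine ⟨ℂ, inferInstance, inferInstance, inferInstance, fun q => q.2.1,
        ⟨fun z _ => contMDiffAt_snd.fst, fun z _ => rfl, fun z _ v => ⟨v, ?_⟩, 1, one_pos,
          fun h τ _ _ _ hh => hh⟩, fun z hz => hz.elim⟩
      exact DFunLike.congr_fun (mfderiv_id (I := 𝓘(ℂ, C2)) (x := f z)) v
    · rintro s t hst ⟨T, i1, i2, i3, M, h1, h2⟩
      exact ⟨T, i1, i2, i3, M, h1, fun z hz => h2 z (hst hz)⟩
    · rintro s t ⟨T, i1, i2, i3, M, h1, h2⟩ ⟨T', j1, j2, j3, M', h1', h2'⟩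
      obtain ⟨N, n1, n2⟩ := Tr.comp hK hf h1 h1'
      refine ⟨T × T', inferInstance, inferInstance, inferInstance, N, n1, fun z hz hzK => ?_⟩
      rcases hz with hz | hz
      · refine Submodule.eq_top_iff'.2 fun w => ?_
        obtain ⟨v, rfl⟩ := h1'.sur z hzK w
        exact (n2 z hzK).2 v (by rw [h2 z hz hzK]; exact Submodule.mem_top)
      · exact top_le_iff.1 (h2' z hz hzK ▸ (n2 z hzK).1)
    · intro z0 hz
      obtain ⟨T, i1, i2, i3, M, h1, h2⟩ := h z0 hz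
      have h3 := rg_open (S := fun q => M (q.1, f q.1, q.2)) (h1.hol_S hf z0 hz)
        (LinearMap.range_eq_top.1 h2)
      exact ⟨_, mem_nhdsWithin_of_mem_nhds h3, T, i1, i2, i3, M,
        h1, fun z hz _ => LinearMap.range_eq_top.2 hz⟩
  obtain ⟨T, i1, i2, i3, M, h1, h2⟩ := key
  exact ⟨T, i1, i2, i3, M, h1, fun z hz => h2 z hz hz⟩

theorem appr_dom [CompactSpace X] (σ : TwoForm X) (hK : IsCompact K) (hc : Convex ℝ K)
    (h : ∀ f : Cn ι → X, HolOn f K → ∀ z ∈ K, DomAt K Q f z) {f : Cn ι → X} (hf : HolOn f K) :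
    Appr K Q f := by
  refine appr_of_open hK hc (fun f hf => ?_) hf
  obtain ⟨T, _, _, _, M, hM, hR⟩ := dom_every hK hf (h f hf)
  obtain ⟨η, hη, hp⟩ := hM.pres
  obtain ⟨δ, hδ, hs⟩ := solve σ hK hc (hM.hol_S hf)
    (fun z hz => LinearMap.range_eq_top.1 (hR z hz)) hη
  refine ⟨δ, hδ, fun g hg hd ha ε hε => ?_⟩
  obtain ⟨τ, hτ, h2⟩ := hs g hg fun z hz => by rw [hM.val z hz]; exact hd z hz
  obtain ⟨G, hG, h3⟩ := hp f τ hf hτ (fun z hz => ⟨by simpa using hη, (h2 z hz).1⟩) ha ε hε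
  exact ⟨G, hG, fun z hz => by rw [← (h2 z hz).2]; exact h3 z hz⟩

end

end Vale.Agent.P290
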