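import Vale.Agent.P290.Stmt
import Vale.Agent.P278.Osg2

/-! P290: internal definitions (owner helper93). FROZEN.
Holomorphic near a set = `AnalyticOnNhd` (vector values) or `HolOn` (values in the surface).
`P278.osgood`, `P278.osgood_at` turn complex differentiability into analyticity. -/

namespace Vale.Agent.P290

open scoped Manifold ContDiff Topology LinearAlgebra.Projectivization
open Set Filter Metric Function

noncomputable section

abbrev Cn (ι : Type) : Type := ι → ℂ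

def e0 : C2 := Pi.single 0 1
def e1 : C2 := Pi.single 1 1

def det2 (v w : C2) : ℂ := v 0 * w 1 - v 1 * w 0

/-- The vector `a` represents the point `p`. -/
def On (p : P1) (a : C2) : Prop := ∃ h : a ≠ 0, p = Projectivization.mk ℂ a h

/-- `a` is a holomorphic lift of `p` near `S`. -/
def LiftOn {ι : Type} [Fintype ι] (p : Cn ι → P1) (a : Cn ι → C2) (S : Set (Cn ι)) : Prop :=
  AnalyticOnNhd ℂ a S ∧ ∀ᶠ z in 𝓝ˢ S, On (p z) (a z)

section Box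

variable {ι : Type}

/-- The real coordinates. -/
def xc (k : ι × Bool) (z : Cn ι) : ℝ := cond k.2 (z k.1).re (z k.1).im

/-- Closed boxes. -/
def Bx (lo hi : ι × Bool → ℝ) : Set (Cn ι) := {z | ∀ k, lo k ≤ xc k z ∧ xc k z ≤ hi k}

/-- Polyhedra. -/
def Pol [Fintype ι] (L : List ((Cn ι →L[ℂ] ℂ) × ℝ)) : Set (Cn ι) :=
  {z | ∀ c ∈ L, (c.1 z).re ≤ c.2}

/-- Additive splitting across every cut of `C ∩ box`. -/
def Split [Fintype ι] [DecidableEq ι] (C : Set (Cn ι)) : Prop :=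
  ∀ (lo hi : ι × Bool → ℝ) (k : ι × Bool) (c : ℝ), lo k ≤ c → c ≤ hi k → ∀ h : Cn ι → ℂ,
    AnalyticOnNhd ℂ h (C ∩ Bx (update lo k c) (update hi k c)) →
      ∃ p q : Cn ι → ℂ, AnalyticOnNhd ℂ p (C ∩ Bx lo (update hi k c)) ∧
        AnalyticOnNhd ℂ q (C ∩ Bx (update lo k c) hi) ∧
        ∀ᶠ z in 𝓝ˢ (C ∩ Bx (update lo k c) (update hi k c)), h z = p z - q z

end Box

section Md

variable (A B : Type) [NormedAddCommGroup A] [NormedSpace ℂ A] [NormedAddCommGroup B]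
  [NormedSpace ℂ B] {M N : Type*} [TopologicalSpace M] [ChartedSpace A M] [TopologicalSpace N]
  [ChartedSpace B N]

/-- The differential, with plain types. -/
def md (f : M → N) (x : M) : A →L[ℂ] B := mfderiv 𝓘(ℂ, A) 𝓘(ℂ, B) f x

/-- Holomorphic near `x`. -/
def Hol (f : M → N) (x : M) : Prop := ContMDiffAt 𝓘(ℂ, A) 𝓘(ℂ, B) ω f x

end Md

theorem hol_iff {A B : Type} [NormedAddCommGroup A] [NormedSpace ℂ A] [NormedAddCommGroup B]
    [NormedSpace ℂ B] [CompleteSpace B] {f : A → B} {x : A} : Hol A B f x ↔ AnalyticAt ℂ f x :=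
  contMDiffAt_iff_contDiffAt.trans ⟨fun h => h.analyticAt, fun h => h.contDiffAt⟩

theorem md_eq {A B : Type} [NormedAddCommGroup A] [NormedSpace ℂ A] [NormedAddCommGroup B]
    [NormedSpace ℂ B] (f : A → B) (x : A) : md A B f x = fderiv ℂ f x := mfderiv_eq_fderiv

/-- Model of `A × X`. -/
abbrev IL (A : Type) [NormedAddCommGroup A] [NormedSpace ℂ A] := 𝓘(ℂ, A).prod 𝓘(ℂ, C2)

/-- Model of `X × A`. -/
abbrev IR (A : Type) [NormedAddCommGroup A] [NormedSpace ℂ A] := 𝓘(ℂ, C2).prod 𝓘(ℂ, A)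

/-- Model of `A × X × T`. -/
abbrev I3 (A T : Type) [NormedAddCommGroup A] [NormedSpace ℂ A] [NormedAddCommGroup T]
  [NormedSpace ℂ T] := 𝓘(ℂ, A).prod (𝓘(ℂ, C2).prod 𝓘(ℂ, T))

section Surf

variable {X : Type*} [MetricSpace X] [ChartedSpace C2 X] {ι : Type} [Fintype ι]

def HolOn (f : Cn ι → X) (S : Set (Cn ι)) : Prop := ∀ z ∈ S, Hol (Cn ι) C2 f z

/-- `f` is a uniform limit on `K` of maps holomorphic near `Q`. -/
def Appr (K Q : Set (Cn ι)) (f : Cn ι → X) : Prop :=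
  ∀ ε : ℝ, 0 < ε → ∃ F : Cn ι → X, HolOn F Q ∧ ∀ z ∈ K, dist (F z) (f z) < ε

/-- The coefficient of the form in a chart. -/
def rho (σ : TwoForm X) (φ : OpenPartialHomeomorph X C2) (y : C2) : ℂ :=
  σ.σ (φ.symm y) (md C2 C2 φ.symm y e0) (md C2 C2 φ.symm y e1)

/-- `γ` solves `γ' = H (γ)` at the complex time `s`. -/
def Sol (H : X → C2) (γ : ℂ → X) (s : ℂ) : Prop :=
  HasMFDerivAt 𝓘(ℂ, ℂ) 𝓘(ℂ, C2) γ s ((1 : ℂ →L[ℂ] ℂ).smulRight (H (γ s)) : ℂ →L[ℂ] C2)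

/-- `H` is a holomorphic vector field on `O`. -/
def VF (H : X → C2) (O : Set X) : Prop :=
  ∀ φ ∈ atlas C2 X, ∀ x ∈ O, x ∈ φ.source →
    AnalyticAt ℂ (fun y => md C2 C2 φ (φ.symm y) (H (φ.symm y))) (φ x)

/-- The Hamiltonian field of `f`. -/
def ham (σ : TwoForm X) (f : X → ℂ) (x : X) : C2 :=
  (σ.σ x e0 e1)⁻¹ • ![md C2 ℂ f x e1, -md C2 ℂ f x e0]

/-- The affine coordinates of `π`: `a₁ / a₀` and `- a₀ / a₁`. -/
def aff (π : X → P1) (c : Fin 2) (x : X) : ℂ :=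
  ![(π x).rep 1 / (π x).rep 0, -(π x).rep 0 / (π x).rep 1] c

/-- The fibrewise flow of a fibration. -/
structure Fl (σ : TwoForm X) (π : X → P1) where
  Φ : X → C2 → ℂ → X
  V : X → C2 → C2
  hol : ∀ {x e} (s : ℂ), On (π x) e → ∃ Ψ : X × C2 × ℂ → X,
    ContMDiffAt (IR (C2 × ℂ)) 𝓘(ℂ, C2) ω Ψ (x, e, s) ∧
      ∀ᶠ q in 𝓝 ((x, e, s) : X × C2 × ℂ), On (π q.1) q.2.1 → Φ q.1 q.2.1 q.2.2 = Ψ q
  zero : ∀ {x e}, On (π x) e → Φ x e 0 = x
  fib : ∀ {x e} (s : ℂ), On (π x) e → π (Φ x e s) = π x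
  add : ∀ {x e} (s t : ℂ), On (π x) e → Φ (Φ x e s) e t = Φ x e (s + t)
  smul : ∀ {x e} (c s : ℂ), On (π x) e → c ≠ 0 → Φ x (c • e) s = Φ x e (c ^ 2 * s)
  sol : ∀ {x e} (s : ℂ), On (π x) e → Sol (fun y => V y e) (Φ x e) s
  form : ∀ {x a}, IsLift π a x → ∀ w, σ.σ x (V x (a x)) w = det2 (a x) (md C2 C2 a x w)

/-- The vector on the line `π x` with `α ⬝ᵥ e = 1`. -/
def nrm (π : X → P1) (α : C2) (x : X) : C2 := (α ⬝ᵥ (π x).rep)⁻¹ • (π x).rep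

variable {T : Type} [NormedAddCommGroup T] [NormedSpace ℂ T]

/-- A family of moves from `f` to `g` that preserves approximability. -/
structure Tr (K Q : Set (Cn ι)) (f g : Cn ι → X) (M : Cn ι × X × T → X) : Prop where
  hol : ∀ z ∈ K, ContMDiffAt (I3 (Cn ι) T) 𝓘(ℂ, C2) ω M (z, f z, 0)
  val : ∀ z ∈ K, M (z, f z, 0) = g z
  sur : ∀ z ∈ K, Surjective (md C2 C2 (fun x => M (z, x, 0)) (f z))
  pres : ∃ δ : ℝ, 0 < δ ∧ ∀ (h : Cn ι → X) (τ : Cn ι → T), HolOn h K → AnalyticOnNhd ℂ τ K →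
    (∀ z ∈ K, dist (h z) (f z) < δ ∧ ‖τ z‖ < δ) → Appr K Q h →
      Appr K Q fun z => M (z, h z, τ z)

/-- The directions of the moves. -/
def Rg (f : Cn ι → X) (M : Cn ι × X × T → X) (z : Cn ι) : Submodule ℂ C2 :=
  LinearMap.range (md T C2 (fun t => M (z, f z, t)) 0 : T →ₗ[ℂ] C2)

end Surf

end

end Vale.Agent.P290
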