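import Vale.Agent.P290.FlowH
import Vale.Agent.P290.Aff

/-!
P290 Fib. Helper lemma names start with fib_.
O c = {x | (π x).rep c ≠ 0}, H c = ham σ (aff π c), Ψ c = flow_glob (md f x (ham x) = σ (ham) (ham) = 0). For e ≠ 0 let c(e) = 0 if e 0 ≠ 0
else 1; Φ x e s = Ψ c(e) (x, e c(e) ^ 2 * s), V x e = e c(e) ^ 2 • H c(e) x. Key facts for On (π y) e and any c with e c ≠ 0 (then y ∈ O c):
(V) V y e = e c ^ 2 • H c y (HolP.lift_at, aff_md, ham_eq, sig_inj), (F) Φ x e s = Ψ c (x, e c ^ 2 * s): if e 0, e 1 ≠ 0 the curve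
t ↦ Ψ 1 (x, e 1 ^ 2 / e 0 ^ 2 * t) stays in the fibre (aff_inj) and solves H 0 (Sol.scale), so sol_uniq on univ.
hol: Ψ' q = Ψ c (q.1, q.2.1 c ^ 2 * q.2.2) with c = c(e), and (F) near e. add: sol_uniq with Sol.shift. smul: (F).
-/

namespace Vale.Agent.P290

open scoped Manifold ContDiff Topology LinearAlgebra.Projectivization
open Set Filter Metric Function

noncomputable section

variable {X : Type*} [MetricSpace X] [ChartedSpace C2 X] [IsManifold 𝓘(ℂ, C2) ω X]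

theorem fib_mem {p : P1} {e : C2} (h : On p e) {c : Fin 2} (hc : e c ≠ 0) : p.rep c ≠ 0 := by
  obtain ⟨k, -, rfl⟩ := h.exists_smul (on_rep p)
  exact right_ne_zero_of_mul hc

theorem fib_form (σ : TwoForm X) {π : X → P1} {x : X} {a : X → C2} (ha : IsLift π a x)
    {c : Fin 2} (hc : a x c ≠ 0) (w : C2) :
    σ.σ x (a x c ^ 2 • ham σ (aff π c) x) w = det2 (a x) (md C2 C2 a x w) := by
  rw [map_smul, smul_apply, ham_eq, smul_eq_mul, aff_md ha hc]

theorem fib_V (σ : TwoForm X) {π : X → P1} (hπ : HolP π) {y : X} {e : C2} (h : On (π y) e)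
    {c d : Fin 2} (hc : e c ≠ 0) (hd : e d ≠ 0) :
    ham σ (aff π c) y = (e d ^ 2 / e c ^ 2) • ham σ (aff π d) y := by
  obtain ⟨a, ha, rfl⟩ := hπ.lift_at h
  have h1 := sig_inj σ fun w => (fib_form σ ha hc w).trans (fib_form σ ha hd w).symm
  rw [div_eq_inv_mul, mul_smul, ← h1, smul_smul, inv_mul_cancel₀ (pow_ne_zero 2 hc), one_smul]

theorem fib_idx : ∃ ci : C2 → Fin 2, ∀ e : C2, e ≠ 0 → e (ci e) ≠ 0 := by
  have : ∀ e : C2, ∃ c, e ≠ 0 → e c ≠ 0 := fun e => by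
    by_cases h : e = 0
    · exact ⟨0, fun h' => absurd h h'⟩
    · obtain ⟨c, hc⟩ := Function.ne_iff.1 h
      exact ⟨c, fun _ => hc⟩
  exact ⟨fun e => (this e).choose, fun e => (this e).choose_spec⟩

theorem exists_fl [CompactSpace X] (σ : TwoForm X) {π : X → P1} (hπ : HolP π) :
    Nonempty (Fl σ π) := by
  have hvf : ∀ c, VF (ham σ (aff π c)) {x | (π x).rep c ≠ 0} := fun c =>
    ham_vf σ fun x hx => aff_hol hπ c hx
  choose Ψ hΨ using fun c => flow_glob (aff_open hπ c) (hvf c) (fun x hx => aff_hol hπ c hx)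
    (fun x _ => (ham_eq σ _ x _).symm.trans (σ.alt x _)) (aff_compact hπ c)
  obtain ⟨ci, hci⟩ := fib_idx
  have hfib : ∀ c x, (π x).rep c ≠ 0 → ∀ s, π (Ψ c (x, s)) = π x := fun c x hx s =>
    aff_inj c ((hΨ c x hx).2 s).2.1 hx ((hΨ c x hx).2 s).2.2.1
  have hF : ∀ {x e c d}, On (π x) e → e c ≠ 0 → e d ≠ 0 → ∀ s,
      Ψ c (x, e c ^ 2 * s) = Ψ d (x, e d ^ 2 * s) := fun {x e c d} h hc hd s => by
    have xc := fib_mem h hc
    have xd := fib_mem h hd
    have h1 := sol_uniq (hvf c) isOpen_univ isPreconnected_univ (γ1 := fun t => Ψ c (x, t))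
      (γ2 := fun t => Ψ d (x, e d ^ 2 / e c ^ 2 * t))
      (fun t _ => ⟨((hΨ c x xc).2 t).2.2.2, ((hΨ c x xc).2 t).2.1⟩)
      (fun t _ => Sol.scale (γ := fun t => Ψ d (x, t)) ((hΨ d x xd).2 _).2.2.2
        (fib_V σ hπ (by rw [hfib d x xd]; exact h) hc hd)) (mem_univ 0)
      (by rw [mul_zero, (hΨ c x xc).1, (hΨ d x xd).1]) (e c ^ 2 * s) (mem_univ _)
    rw [← mul_assoc, div_mul_cancel₀ _ (pow_ne_zero 2 hc)] at h1
    exact h1
  have hG : ∀ c x, (π x).rep c ≠ 0 → ∀ a b, Ψ c (Ψ c (x, a), b) = Ψ c (x, a + b) :=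
    fun c x hx a b => by
      have hy := ((hΨ c x hx).2 a).2.1
      exact sol_uniq (hvf c) isOpen_univ isPreconnected_univ (γ1 := fun t => Ψ c (Ψ c (x, a), t))
        (γ2 := fun t => Ψ c (x, a + t))
        (fun t _ => ⟨((hΨ c _ hy).2 t).2.2.2, ((hΨ c _ hy).2 t).2.1⟩)
        (fun t _ => Sol.shift (γ := fun t => Ψ c (x, t)) ((hΨ c x hx).2 _).2.2.2) (mem_univ 0)
        (by rw [add_zero, (hΨ c _ hy).1]) b (mem_univ _)
  refine ⟨{ Φ := fun x e s => Ψ (ci e) (x, e (ci e) ^ 2 * s)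
            V := fun x e => e (ci e) ^ 2 • ham σ (aff π (ci e)) x
            hol := fun {x e} s h => ⟨fun q => Ψ (ci e) (q.1, q.2.1 (ci e) ^ 2 * q.2.2), ?_, ?_⟩
            zero := fun {x e} h => ?_
            fib := fun {x e} s h => hfib _ x (fib_mem h (hci e h.ne)) _
            add := fun {x e} s t h => ?_
            smul := fun {x e} k s h hk => ?_
            sol := fun {x e} s h => Sol.scale (γ := fun t => Ψ (ci e) (x, t))
              ((hΨ _ x (fib_mem h (hci e h.ne))).2 _).2.2.2 rfl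
            form := fun {x a} ha w => fib_form σ ha (hci _ ha.on.self_of_nhds.ne) w }⟩
  · have h1 : ContDiff ℂ ω fun p : C2 × ℂ => p.1 (ci e) ^ 2 * p.2 := by fun_prop
    have h2 : ContMDiffAt (IR (C2 × ℂ)) (IR ℂ) ω
        (fun q : X × C2 × ℂ => (q.1, q.2.1 (ci e) ^ 2 * q.2.2)) (x, e, s) :=
      contMDiffAt_fst.prodMk (h1.contMDiff.contMDiffAt.comp _ contMDiffAt_snd)
    exact ((hΨ _ x (fib_mem h (hci e h.ne))).2 _).1.comp (x, e, s) h2
  · have h1 : Continuous fun q : X × C2 × ℂ => q.2.1 (ci e) := by fun_prop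
    exact (h1.continuousAt.eventually_ne (hci e h.ne)).mono fun q hq h' =>
      hF h' (hci _ h'.ne) hq _
  · rw [mul_zero, (hΨ _ x (fib_mem h (hci e h.ne))).1]
  · rw [hG _ x (fib_mem h (hci e h.ne)), mul_add]
  · rw [hF (h.smul hk) (hci _ (h.smul hk).ne) (d := ci e) (mul_ne_zero hk (hci e h.ne)),
      Pi.smul_apply, smul_eq_mul, mul_pow, mul_comm (k ^ 2), mul_assoc]

end

end Vale.Agent.P290
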