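import Vale.Agent.P290.OdeU
import Vale.Agent.P290.ChartS

/-!
P290 FlowC. Helper lemma names start with flowc_.
sol_uniq: the set of s ∈ B with γ1 = γ2 near s is open, and closed in B (continuity, T2, then ode_uniq in the chart at γ1 s via
sol_chart, V y = md φ (φ.symm y) (H (φ.symm y)), φ.left_inv); `IsPreconnected.subset_of_closure_inter_subset` or `isPreconnected_iff_...`.
flowc_loc (helper): for x0 ∈ O there are r > 0, an open N ∋ x0 and ψ0 = φ.symm (ψ (φ x, s)) with all properties for x ∈ N, s ∈ ball 0 r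
(flow_loc with W = φ.target ∩ φ.symm ⁻¹' O). flow_cpt: finite subcover, ε = least r. Define ψ (x, ·) as a chosen curve γ with γ 0 = x,
values in O and Sol on ball 0 ε if there is one. On N ×ˢ ball 0 ε it equals ψ0 by sol_uniq; `ContMDiffAt.congr_of_eventuallyEq`.
-/

namespace Vale.Agent.P290

open scoped Manifold ContDiff Topology LinearAlgebra.Projectivization
open Set Filter Metric Function

noncomputable section

variable {X : Type*} [MetricSpace X] [ChartedSpace C2 X] [IsManifold 𝓘(ℂ, C2) ω X]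

theorem sol_uniq {H : X → C2} {O : Set X} (hH : VF H O) {B : Set ℂ} (hB : IsOpen B)
    (hc : IsPreconnected B) {γ1 γ2 : ℂ → X} (h1 : ∀ s ∈ B, Sol H γ1 s ∧ γ1 s ∈ O)
    (h2 : ∀ s ∈ B, Sol H γ2 s) {s0 : ℂ} (hs : s0 ∈ B) (h0 : γ1 s0 = γ2 s0) :
    ∀ s ∈ B, γ1 s = γ2 s := by
  have c1 : ∀ s ∈ B, ContinuousAt γ1 s := fun s hs => (h1 s hs).1.continuousAt
  have c2 : ∀ s ∈ B, ContinuousAt γ2 s := fun s hs => (h2 s hs).continuousAt
  have key : ∀ s ∈ B, γ1 s = γ2 s → γ1 =ᶠ[𝓝 s] γ2 := fun s hs e => by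
    have hφ := chart_mem_atlas C2 (γ1 s)
    have m1 := mem_chart_source C2 (γ1 s)
    set φ := chartAt C2 (γ1 s)
    have ev : ∀ γ : ℂ → X, (∀ s ∈ B, Sol H γ s) → γ s ∈ φ.source →
        ∀ᶠ t in 𝓝 s, γ t ∈ φ.source ∧ HasDerivAt (φ ∘ γ)
          (md C2 C2 φ (φ.symm ((φ ∘ γ) t)) (H (φ.symm ((φ ∘ γ) t)))) t := fun γ h m => by
      filter_upwards [hB.mem_nhds hs,
        (h s hs).continuousAt.preimage_mem_nhds (φ.open_source.mem_nhds m)] with t ht hm
      refine ⟨hm, ?_⟩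
      rw [comp_apply, φ.left_inv hm]
      exact (sol_chart hφ hm (h t ht).continuousAt).1 (h t ht)
    have e1 := ev γ1 (fun s hs => (h1 s hs).1) m1
    have e2 := ev γ2 h2 (e ▸ m1)
    filter_upwards [e1, e2, ode_uniq (V := fun y => md C2 C2 φ (φ.symm y) (H (φ.symm y)))
      (u := φ ∘ γ1) (v := φ ∘ γ2) (hH φ hφ _ (h1 s hs).2 m1) (e1.mono fun t h => h.2)
      (e2.mono fun t h => h.2) (congrArg φ e)] with t a b c
    exact φ.injOn a.1 b.1 c
  intro s hs'
  refine (hc.subset_of_closure_inter_subset (u := {s | γ1 =ᶠ[𝓝 s] γ2})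
    isOpen_setOfPred_eventually_nhds ⟨s0, hs, key s0 hs h0⟩
    (fun t ht => key t ht.2 ?_) hs').self_of_nhds
  exact tendsto_nhds_unique_of_frequently_eq (c1 t ht.2) (c2 t ht.2)
    ((mem_closure_iff_frequently.1 ht.1).mono fun r hr => hr.self_of_nhds)

end

end Vale.Agent.P290
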