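import Vale.Agent.P290.FlowK

/-!
P290 FlowG. Helper lemma names start with flowg_.
flow_ball: C = {x ∈ O | ‖f x‖ ≤ ρ}, ψ, ε from flow_cpt. f (ψ (x, s)) = f x on ball 0 ε (Sol.deriv_comp, derivative zero on a convex
open set), so ψ preserves C and U = {x ∈ O | ‖f x‖ < ρ}. Group law ψ (ψ (x, a), b) = ψ (x, a + b) when ‖a‖ + ‖b‖ < ε (sol_uniq, Sol.shift).
Induct on n for R = (n + 1) ε / 2: from Φ on ball R put θ = R / (R + ε / 2), Φ' (x, s) = ψ (Φ (x, θ s), (1 - θ) s). Near s0,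
Φ (x, θ s) = ψ (Φ (x, θ s0), θ (s - s0)) (sol_uniq), so Φ' (x, s) = ψ (Φ (x, θ s0), s - θ s0), which gives Sol.
flow_glob: choose Φ ρ R; Φ (x, s) = Φ (‖f x‖ + 1) (‖s‖ + 1) (x, s); any two choices agree on common balls (sol_uniq), so near (x0, s0) it
equals the fixed Φ (‖f x0‖ + 2) (‖s0‖ + 2).
-/

namespace Vale.Agent.P290

open scoped Manifold ContDiff Topology LinearAlgebra.Projectivization
open Set Filter Metric Function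

noncomputable section

variable {X : Type*} [MetricSpace X] [ChartedSpace C2 X] [IsManifold 𝓘(ℂ, C2) ω X]

/-- The flow is defined up to time `R` on the sublevel set. -/
def flowg_P (H : X → C2) (O : Set X) (f : X → ℂ) (ρ : ℝ) (Φ : X × ℂ → X) (R : ℝ) : Prop :=
  ∀ x ∈ O, ‖f x‖ < ρ → Φ (x, 0) = x ∧ ∀ s ∈ ball (0 : ℂ) R,
    ContMDiffAt (IR ℂ) 𝓘(ℂ, C2) ω Φ (x, s) ∧ Φ (x, s) ∈ O ∧ f (Φ (x, s)) = f x ∧
      Sol H (fun t => Φ (x, t)) s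

omit [IsManifold 𝓘(ℂ, C2) ω X] in
theorem flowg_congr {H : X → C2} {γ1 γ2 : ℂ → X} {s : ℂ} (h : γ1 =ᶠ[𝓝 s] γ2)
    (h2 : Sol H γ2 s) : Sol H γ1 s := by
  unfold Sol at h2 ⊢
  have e : γ1 s = γ2 s := h.eq_of_nhds
  have := h2.congr_of_eventuallyEq h
  rw [e]
  exact this

theorem flowg_base {H : X → C2} {O : Set X} (hO : IsOpen O) (hH : VF H O) {f : X → ℂ}
    (hf : ∀ x ∈ O, Hol C2 ℂ f x) (h0 : ∀ x ∈ O, md C2 ℂ f x (H x) = 0) {ρ : ℝ}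
    (hp : IsCompact {x ∈ O | ‖f x‖ ≤ ρ}) : ∃ ε : ℝ, 0 < ε ∧ ∃ ψ, flowg_P H O f ρ ψ ε := by
  obtain ⟨ε, hε, ψ, hψ⟩ := flow_cpt hO hH hp fun x hx => hx.1
  refine ⟨ε, hε, ψ, fun x hx hρ => ?_⟩
  obtain ⟨h1, h2⟩ := hψ x ⟨hx, hρ.le⟩
  refine ⟨h1, fun s hs => ⟨(h2 s hs).1, (h2 s hs).2.1, ?_, (h2 s hs).2.2⟩⟩
  have hd : ∀ t ∈ ball (0 : ℂ) ε, HasDerivAt (f ∘ fun t => ψ (x, t)) 0 t := fun t ht => by
    have := (h2 t ht).2.2.deriv_comp (hf _ (h2 t ht).2.1)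
    rwa [h0 _ (h2 t ht).2.1] at this
  have := isOpen_ball.is_const_of_deriv_eq_zero (convex_ball (0 : ℂ) ε).isPreconnected
    (fun t ht => (hd t ht).differentiableAt.differentiableWithinAt)
    (fun t ht => (hd t ht).deriv) hs (mem_ball_self hε)
  simpa [h1] using this

theorem flowg_restart {H : X → C2} {O : Set X} (hH : VF H O) {f : X → ℂ} {ρ R ε : ℝ}
    {Φ ψ : X × ℂ → X} (hΦ : flowg_P H O f ρ Φ R) (hψ : flowg_P H O f ρ ψ ε) {x : X}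
    (hx : x ∈ O) (hρ : ‖f x‖ < ρ) {a τ : ℂ} (h1 : ‖τ‖ < ε) (h2 : ‖a‖ + ‖τ‖ < R) :
    Φ (x, a + τ) = ψ (Φ (x, a), τ) := by
  have ha : a ∈ ball (0 : ℂ) R := by
    rw [mem_ball_zero_iff]
    linarith [norm_nonneg τ]
  obtain ⟨-, hy, hfy, -⟩ := (hΦ x hx hρ).2 a ha
  obtain ⟨e0, hs⟩ := hψ _ hy (by rwa [hfy])
  have hpos : 0 < min ε (R - ‖a‖) :=
    lt_min (lt_of_le_of_lt (norm_nonneg _) h1) (by linarith [norm_nonneg τ])
  refine sol_uniq (γ1 := fun t => Φ (x, a + t)) (γ2 := fun t => ψ (Φ (x, a), t)) hH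
    (isOpen_ball (x := (0 : ℂ)) (ε := min ε (R - ‖a‖))) (convex_ball _ _).isPreconnected
    (fun s hs' => ?_) (fun s hs' => ?_) (mem_ball_self hpos) (by simp [e0]) τ ?_
  · rw [mem_ball_zero_iff, lt_min_iff] at hs'
    have : a + s ∈ ball (0 : ℂ) R := by
      rw [mem_ball_zero_iff]
      linarith [norm_add_le a s, hs'.2]
    obtain ⟨-, h3, -, h4⟩ := (hΦ x hx hρ).2 _ this
    exact ⟨h4.shift, h3⟩
  · rw [mem_ball_zero_iff, lt_min_iff] at hs'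
    exact (hs s (mem_ball_zero_iff.2 hs'.1)).2.2.2
  · rw [mem_ball_zero_iff, lt_min_iff]
    exact ⟨h1, by linarith⟩

theorem flowg_step {H : X → C2} {O : Set X} (hH : VF H O) {f : X → ℂ} {ρ R ε : ℝ}
    {Φ ψ : X × ℂ → X} (hR : 0 < R) (hε : 0 < ε) (hΦ : flowg_P H O f ρ Φ R)
    (hψ : flowg_P H O f ρ ψ ε) : ∃ Φ', flowg_P H O f ρ Φ' (R + ε / 2) := by
  obtain ⟨θ, hθ⟩ : ∃ θ : ℝ, θ = R / (R + ε / 2) := ⟨_, rfl⟩
  have hR' : 0 < R + ε / 2 := by linarith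
  have hθ0 : 0 < θ := hθ ▸ div_pos hR hR'
  have hθR : θ * (R + ε / 2) = R := by rw [hθ]; field_simp
  have hθ1 : θ < 1 := by rw [hθ, div_lt_one hR']; linarith
  have n1 : ∀ s : ℂ, ‖(θ : ℂ) * s‖ = θ * ‖s‖ := fun s => by
    rw [norm_mul, Complex.norm_real, Real.norm_of_nonneg hθ0.le]
  have n2 : ∀ s : ℂ, ‖(1 - θ : ℂ) * s‖ = (1 - θ) * ‖s‖ := fun s => by
    have : (1 - θ : ℂ) = ((1 - θ : ℝ) : ℂ) := by push_cast; ring
    rw [this, norm_mul, Complex.norm_real, Real.norm_of_nonneg (by linarith)]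
  refine ⟨fun q => ψ (Φ (q.1, θ * q.2), (1 - θ) * q.2), fun x hx hρ => ⟨?_, fun s hs => ?_⟩⟩
  · simp only [mul_zero]
    rw [(hΦ x hx hρ).1, (hψ x hx hρ).1]
  rw [mem_ball_zero_iff] at hs
  have b1 : ‖(θ : ℂ) * s‖ < R := by rw [n1]; nlinarith
  have b2 : ‖(1 - θ : ℂ) * s‖ < ε / 2 := by rw [n2]; nlinarith
  obtain ⟨c1, hy, hfy, -⟩ := (hΦ x hx hρ).2 _ (mem_ball_zero_iff.2 b1)
  have hρy : ‖f (Φ (x, θ * s))‖ < ρ := by rwa [hfy]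
  obtain ⟨c2, hz, hfz, hsol⟩ := (hψ _ hy hρy).2 ((1 - θ) * s)
    (mem_ball_zero_iff.2 (by linarith))
  refine ⟨?_, hz, hfz.trans hfy, ?_⟩
  · have m : ∀ c : ℂ, ContMDiffAt (IR ℂ) 𝓘(ℂ, ℂ) ω (fun q : X × ℂ => c * q.2) (x, s) :=
      fun c => ContMDiffAt.comp (g := fun t : ℂ => c * t) (f := fun q : X × ℂ => q.2) (x, s)
        (contDiff_const.mul contDiff_id).contMDiff.contMDiffAt contMDiffAt_snd
    have m1 : ContMDiffAt (IR ℂ) 𝓘(ℂ, C2) ω (fun q : X × ℂ => Φ (q.1, θ * q.2)) (x, s) :=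
      ContMDiffAt.comp (g := Φ) (f := fun q : X × ℂ => (q.1, (θ : ℂ) * q.2)) (x, s) c1
        (contMDiffAt_fst.prodMk (m θ))
    exact ContMDiffAt.comp (g := ψ)
      (f := fun q : X × ℂ => (Φ (q.1, θ * q.2), (1 - θ : ℂ) * q.2)) (x, s) c2
      (m1.prodMk (m (1 - θ)))
  · have hsol' : Sol H (fun t => ψ (Φ (x, θ * s), -(θ * s) + t)) s := by
      refine Sol.shift (γ := fun t => ψ (Φ (x, θ * s), t)) ?_
      have : -((θ : ℂ) * s) + s = (1 - θ) * s := by ring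
      rw [this]
      exact hsol
    refine flowg_congr ?_ hsol'
    have k1 : Continuous fun t : ℂ => ‖(θ : ℂ) * (t - s)‖ := by fun_prop
    have k2 : Continuous fun t : ℂ => ‖(θ : ℂ) * s‖ + ‖(θ : ℂ) * (t - s)‖ := by fun_prop
    have k3 : Continuous fun t : ℂ => ‖(θ : ℂ) * (t - s)‖ + ‖(1 - θ : ℂ) * t‖ := by fun_prop
    have j1 : ∀ᶠ t in 𝓝 s, ‖(θ : ℂ) * (t - s)‖ < ε :=
      k1.continuousAt.eventually_lt continuousAt_const (by simpa using hε)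
    have j2 : ∀ᶠ t in 𝓝 s, ‖(θ : ℂ) * s‖ + ‖(θ : ℂ) * (t - s)‖ < R :=
      k2.continuousAt.eventually_lt continuousAt_const (by simpa using b1)
    have j3 : ∀ᶠ t in 𝓝 s, ‖(θ : ℂ) * (t - s)‖ + ‖(1 - θ : ℂ) * t‖ < ε :=
      k3.continuousAt.eventually_lt continuousAt_const
        (by simp only [sub_self, mul_zero, norm_zero, zero_add]; linarith)
    filter_upwards [j1, j2, j3] with t t1 t2 t3
    have e1 : (θ : ℂ) * t = θ * s + θ * (t - s) := by ring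
    have e2 : -((θ : ℂ) * s) + t = θ * (t - s) + (1 - θ) * t := by ring
    change ψ (Φ (x, θ * t), (1 - θ) * t) = ψ (Φ (x, θ * s), -(θ * s) + t)
    rw [e1, flowg_restart hH hΦ hψ hx hρ t1 t2, e2,
      flowg_restart hH hψ hψ hy hρy (by linarith [norm_nonneg ((θ : ℂ) * (t - s))]) t3]

theorem flow_ball {H : X → C2} {O : Set X} (hO : IsOpen O) (hH : VF H O) {f : X → ℂ}
    (hf : ∀ x ∈ O, Hol C2 ℂ f x) (h0 : ∀ x ∈ O, md C2 ℂ f x (H x) = 0) {ρ : ℝ}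
    (hp : IsCompact {x ∈ O | ‖f x‖ ≤ ρ}) (R : ℝ) :
    ∃ Φ : X × ℂ → X, ∀ x ∈ O, ‖f x‖ < ρ → Φ (x, 0) = x ∧ ∀ s ∈ ball (0 : ℂ) R,
      ContMDiffAt (IR ℂ) 𝓘(ℂ, C2) ω Φ (x, s) ∧ Φ (x, s) ∈ O ∧ f (Φ (x, s)) = f x ∧
        Sol H (fun t => Φ (x, t)) s := by
  obtain ⟨ε, hε, ψ, hψ⟩ := flowg_base hO hH hf h0 hp
  have key : ∀ n : ℕ, ∃ Φ, flowg_P H O f ρ Φ (ε + n * (ε / 2)) := by
    intro n
    induction n with
    | zero => exact ⟨ψ, by simpa using hψ⟩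
    | succ n ih =>
      obtain ⟨Φ, hΦ⟩ := ih
      have := flowg_step hH (by positivity) hε hΦ hψ
      have e : ε + ((n + 1 : ℕ) : ℝ) * (ε / 2) = ε + n * (ε / 2) + ε / 2 := by
        push_cast; ring
      rwa [e]
  obtain ⟨n, hn⟩ := exists_nat_ge (R / (ε / 2))
  obtain ⟨Φ, hΦ⟩ := key n
  have hR : R ≤ ε + n * (ε / 2) := by
    rw [div_le_iff₀ (by linarith)] at hn
    linarith
  exact ⟨Φ, fun x hx hρ => ⟨(hΦ x hx hρ).1, fun s hs =>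
    (hΦ x hx hρ).2 s (ball_subset_ball hR hs)⟩⟩

end

end Vale.Agent.P290
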