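import Vale.Agent.P290.FlowG

/-!
P290 FlowH (second part of FlowG; the plan covers both parts). Helper lemma names start with flowh_.
flow_ball: C = {x ∈ O | ‖f x‖ ≤ ρ}, ψ, ε from flow_cpt. f (ψ (x, s)) = f x on ball 0 ε (Sol.deriv_comp, derivative zero on a convex
open set), so ψ preserves C and U = {x ∈ O | ‖f x‖ < ρ}. Group law ψ (ψ (x, a), b) = ψ (x, a + b) when ‖a‖ + ‖b‖ < ε (sol_uniq, Sol.shift).
Induct on n for R = (n + 1) ε / 2: from Φ on ball R put θ = R / (R + ε / 2), Φ' (x, s) = ψ (Φ (x, θ s), (1 - θ) s). Near s0,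
Φ (x, θ s) = ψ (Φ (x, θ s0), θ (s - s0)) (sol_uniq), so Φ' (x, s) = ψ (Φ (x, θ s0), s - θ s0), which gives Sol.
flow_glob: choose Φ ρ R; Φ (x, s) = Φ (‖f x‖ + 1) (‖s‖ + 1) (x, s); any two choices agree on common balls (sol_uniq), so near (x0, s0) it
equals the fixed Φ (‖f x0‖ + 2) (‖s0‖ + 2).
-/

namespace Vale.Agent.P290

open scoped Manifold ContDiff Topology LinearAlgebra.Projectivization
open Set Filter Metric Function

noncomputable section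

variable {X : Type*} [MetricSpace X] [ChartedSpace C2 X] [IsManifold 𝓘(ℂ, C2) ω X]

theorem flow_glob {H : X → C2} {O : Set X} (hO : IsOpen O) (hH : VF H O) {f : X → ℂ}
    (hf : ∀ x ∈ O, Hol C2 ℂ f x) (h0 : ∀ x ∈ O, md C2 ℂ f x (H x) = 0)
    (hp : ∀ ρ : ℝ, IsCompact {x ∈ O | ‖f x‖ ≤ ρ}) :
    ∃ Φ : X × ℂ → X, ∀ x ∈ O, Φ (x, 0) = x ∧ ∀ s : ℂ,
      ContMDiffAt (IR ℂ) 𝓘(ℂ, C2) ω Φ (x, s) ∧ Φ (x, s) ∈ O ∧ f (Φ (x, s)) = f x ∧
        Sol H (fun t => Φ (x, t)) s := by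
  choose Ψ hΨ using fun ρ R : ℝ => flow_ball hO hH hf h0 (hp ρ) R
  have hu : ∀ x ∈ O, ∀ ρ R ρ' R' : ℝ, ‖f x‖ < ρ → ‖f x‖ < ρ' → ∀ s : ℂ, ‖s‖ < R → ‖s‖ < R' →
      Ψ ρ R (x, s) = Ψ ρ' R' (x, s) := fun x hx ρ R ρ' R' a1 a2 s b1 b2 => by
    have k1 := hΨ ρ R x hx a1
    have k2 := hΨ ρ' R' x hx a2
    refine sol_uniq hH (B := ball 0 (min R R')) isOpen_ball (convex_ball _ _).isPreconnected
      (γ1 := fun t => Ψ ρ R (x, t)) (γ2 := fun t => Ψ ρ' R' (x, t)) (s0 := 0)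
      (fun t ht => ?_) (fun t ht => ?_) ?_ (k1.1.trans k2.1.symm) s ?_
    · have := k1.2 t (ball_subset_ball (min_le_left _ _) ht)
      exact ⟨this.2.2.2, this.2.1⟩
    · exact (k2.2 t (ball_subset_ball (min_le_right _ _) ht)).2.2.2
    · exact mem_ball_self (lt_min ((norm_nonneg s).trans_lt b1) ((norm_nonneg s).trans_lt b2))
    · exact mem_ball_zero_iff.2 (lt_min b1 b2)
  refine ⟨fun p => Ψ (‖f p.1‖ + 1) (‖p.2‖ + 1) p, fun x hx =>
    ⟨(hΨ _ _ x hx (lt_add_one _)).1, fun s => ?_⟩⟩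
  have k := (hΨ (‖f x‖ + 1) (‖s‖ + 1) x hx (lt_add_one _)).2 s (mem_ball_zero_iff.2 (lt_add_one _))
  have hc : ContinuousAt (fun p : X × ℂ => ‖f p.1‖) (x, s) :=
    ((hf x hx).continuousAt.comp_of_eq continuousAt_fst rfl).norm
  have e : (fun p : X × ℂ => Ψ (‖f p.1‖ + 1) (‖p.2‖ + 1) p) =ᶠ[𝓝 (x, s)]
      Ψ (‖f x‖ + 1) (‖s‖ + 1) := by
    filter_upwards [hc.eventually_lt continuousAt_const (lt_add_one ‖f x‖),
      (continuousAt_snd.norm (a := (x, s))).eventually_lt continuousAt_const (lt_add_one ‖s‖),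
      continuousAt_fst.eventually (hO.mem_nhds hx)] with p a1 a2 a3
    exact hu p.1 a3 _ _ _ _ (lt_add_one _) a1 p.2 (lt_add_one _) a2
  refine ⟨k.1.congr_of_eventuallyEq e, k.2.1, k.2.2.1, ?_⟩
  exact HasMFDerivAt.congr_of_eventuallyEq k.2.2.2
    ((continuousAt_const.prodMk continuousAt_id).eventually e)

end

end Vale.Agent.P290
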