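import Vale.Agent.P290.FlowC

/-!
P290 FlowK (second part of FlowC; the plan covers both parts). Helper lemma names start with flowk_.
sol_uniq: the set of s ∈ B with γ1 = γ2 near s is open, and closed in B (continuity, T2, then ode_uniq in the chart at γ1 s via
sol_chart, V y = md φ (φ.symm y) (H (φ.symm y)), φ.left_inv); `IsPreconnected.subset_of_closure_inter_subset` or `isPreconnected_iff_...`.
flowc_loc (helper): for x0 ∈ O there are r > 0, an open N ∋ x0 and ψ0 = φ.symm (ψ (φ x, s)) with all properties for x ∈ N, s ∈ ball 0 r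
(flow_loc with W = φ.target ∩ φ.symm ⁻¹' O). flow_cpt: finite subcover, ε = least r. Define ψ (x, ·) as a chosen curve γ with γ 0 = x,
values in O and Sol on ball 0 ε if there is one. On N ×ˢ ball 0 ε it equals ψ0 by sol_uniq; `ContMDiffAt.congr_of_eventuallyEq`.
-/

namespace Vale.Agent.P290

open scoped Manifold ContDiff Topology LinearAlgebra.Projectivization
open Set Filter Metric Function

noncomputable section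

variable {X : Type*} [MetricSpace X] [ChartedSpace C2 X] [IsManifold 𝓘(ℂ, C2) ω X]

theorem flowk_loc {H : X → C2} {O : Set X} (hO : IsOpen O) (hH : VF H O) {x0 : X} (hx : x0 ∈ O) :
    ∃ r : ℝ, 0 < r ∧ ∃ N : Set X, IsOpen N ∧ x0 ∈ N ∧ ∃ ψ : X × ℂ → X, ∀ x ∈ N,
      ψ (x, 0) = x ∧ ∀ s ∈ ball (0 : ℂ) r, ContMDiffAt (IR ℂ) 𝓘(ℂ, C2) ω ψ (x, s) ∧
        ψ (x, s) ∈ O ∧ Sol H (fun t => ψ (x, t)) s := by
  have hφ := chart_mem_atlas C2 x0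
  have h0 := mem_chart_source C2 x0
  generalize chartAt C2 x0 = φ at hφ h0
  have hW : φ.target ∩ φ.symm ⁻¹' O ∈ 𝓝 (φ x0) :=
    (φ.isOpen_inter_preimage_symm hO).mem_nhds
      ⟨φ.map_source h0, by rw [mem_preimage, φ.left_inv h0]; exact hx⟩
  obtain ⟨r, hr, ψ, hψ⟩ := flow_loc (hH φ hφ x0 hx h0) hW
  refine ⟨r, hr, φ.source ∩ φ ⁻¹' ball (φ x0) r, φ.isOpen_inter_preimage isOpen_ball,
    ⟨h0, mem_ball_self hr⟩, fun p => φ.symm (ψ (φ p.1, p.2)), fun x hx' => ?_⟩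
  obtain ⟨a0, a1⟩ := hψ (φ x) hx'.2
  refine ⟨?_, fun s hs => ?_⟩
  · show φ.symm (ψ (φ x, 0)) = x
    rw [a0, φ.left_inv hx'.1]
  obtain ⟨b1, b2, b3⟩ := a1 s hs
  have c1 : ContMDiffAt (IR ℂ) 𝓘(ℂ, C2 × ℂ) ω (fun p : X × ℂ => (φ p.1, p.2)) (x, s) :=
    ContMDiffAt.prodMk_space
      (ContMDiffAt.comp (x, s) (chart_hol hφ hx'.1) contMDiffAt_fst) contMDiffAt_snd
  have c2 : ContMDiffAt (IR ℂ) 𝓘(ℂ, C2) ω (fun p : X × ℂ => ψ (φ p.1, p.2)) (x, s) :=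
    ContMDiffAt.comp (x, s) (hol_iff.2 b1) c1
  refine ⟨ContMDiffAt.comp (x, s) (chart_symm_hol hφ b2.1) c2, b2.2, ?_⟩
  have c3 : ContinuousAt (fun t => φ.symm (ψ (φ x, t))) s :=
    ContinuousAt.comp (φ.continuousAt_symm b2.1) b3.continuousAt
  refine (sol_chart hφ (φ.map_target b2.1) c3).2 (b3.congr_of_eventuallyEq ?_)
  filter_upwards [isOpen_ball.mem_nhds hs] with t ht
  exact φ.right_inv (a1 t ht).2.1.1

theorem flowk_unif {H : X → C2} {O : Set X} (hO : IsOpen O) (hH : VF H O) {C : Set X}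
    (hC : IsCompact C) (hCO : C ⊆ O) :
    ∃ r : ℝ, 0 < r ∧ ∀ x0 ∈ C, ∃ N : Set X, IsOpen N ∧ x0 ∈ N ∧ ∃ ψ : X × ℂ → X, ∀ x ∈ N,
      ψ (x, 0) = x ∧ ∀ s ∈ ball (0 : ℂ) r, ContMDiffAt (IR ℂ) 𝓘(ℂ, C2) ω ψ (x, s) ∧
        ψ (x, s) ∈ O ∧ Sol H (fun t => ψ (x, t)) s := by
  refine hC.induction_on (p := fun S => ∃ r : ℝ, 0 < r ∧ ∀ x0 ∈ S, ∃ N : Set X, IsOpen N ∧
    x0 ∈ N ∧ ∃ ψ : X × ℂ → X, ∀ x ∈ N,
      ψ (x, 0) = x ∧ ∀ s ∈ ball (0 : ℂ) r, ContMDiffAt (IR ℂ) 𝓘(ℂ, C2) ω ψ (x, s) ∧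
        ψ (x, s) ∈ O ∧ Sol H (fun t => ψ (x, t)) s) ⟨1, one_pos, fun _ h => h.elim⟩ ?_ ?_ ?_
  · rintro S S' hS ⟨r, hr, h⟩
    exact ⟨r, hr, fun x hx => h x (hS hx)⟩
  · rintro S S' ⟨r, hr, h⟩ ⟨r', hr', h'⟩
    refine ⟨min r r', lt_min hr hr', fun x0 hx0 => ?_⟩
    rcases hx0 with hx0 | hx0
    · obtain ⟨N, n1, n2, ψ, hψ⟩ := h x0 hx0
      exact ⟨N, n1, n2, ψ, fun x hx => ⟨(hψ x hx).1, fun s hs =>
        (hψ x hx).2 s (ball_subset_ball (min_le_left _ _) hs)⟩⟩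
    · obtain ⟨N, n1, n2, ψ, hψ⟩ := h' x0 hx0
      exact ⟨N, n1, n2, ψ, fun x hx => ⟨(hψ x hx).1, fun s hs =>
        (hψ x hx).2 s (ball_subset_ball (min_le_right _ _) hs)⟩⟩
  · intro x0 hx0
    obtain ⟨r, hr, N, n1, n2, ψ, hψ⟩ := flowk_loc hO hH (hCO hx0)
    exact ⟨N, mem_nhdsWithin_of_mem_nhds (n1.mem_nhds n2), r, hr,
      fun x hx => ⟨N, n1, hx, ψ, hψ⟩⟩

theorem flow_cpt {H : X → C2} {O : Set X} (hO : IsOpen O) (hH : VF H O) {C : Set X}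
    (hC : IsCompact C) (hCO : C ⊆ O) :
    ∃ ε : ℝ, 0 < ε ∧ ∃ ψ : X × ℂ → X, ∀ x ∈ C, ψ (x, 0) = x ∧ ∀ s ∈ ball (0 : ℂ) ε,
      ContMDiffAt (IR ℂ) 𝓘(ℂ, C2) ω ψ (x, s) ∧ ψ (x, s) ∈ O ∧ Sol H (fun t => ψ (x, t)) s := by
  obtain ⟨r, hr, h⟩ := flowk_unif hO hH hC hCO
  have ex : ∀ x : X, ∃ γ : ℂ → X,
      (∃ γ' : ℂ → X, γ' 0 = x ∧ ∀ s ∈ ball (0 : ℂ) r, Sol H γ' s ∧ γ' s ∈ O) →
        γ 0 = x ∧ ∀ s ∈ ball (0 : ℂ) r, Sol H γ s ∧ γ s ∈ O := fun x => by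
    by_cases hx : ∃ γ' : ℂ → X, γ' 0 = x ∧ ∀ s ∈ ball (0 : ℂ) r, Sol H γ' s ∧ γ' s ∈ O
    · obtain ⟨γ, hγ⟩ := hx
      exact ⟨γ, fun _ => hγ⟩
    · exact ⟨fun _ => x, fun h' => absurd h' hx⟩
  choose Γ hΓ using ex
  refine ⟨r, hr, fun p => Γ p.1 p.2, fun x0 hx0 => ?_⟩
  obtain ⟨N, n1, n2, ψ, hψ⟩ := h x0 hx0
  have hN : ∀ x ∈ N, Γ x 0 = x ∧ ∀ s ∈ ball (0 : ℂ) r, Sol H (Γ x) s ∧ Γ x s ∈ O := fun x hx =>
    hΓ x ⟨fun t => ψ (x, t), (hψ x hx).1, fun s hs =>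
      ⟨((hψ x hx).2 s hs).2.2, ((hψ x hx).2 s hs).2.1⟩⟩
  have he : ∀ x ∈ N, ∀ s ∈ ball (0 : ℂ) r, Γ x s = ψ (x, s) := fun x hx =>
    sol_uniq hH isOpen_ball (convex_ball (0 : ℂ) r).isPreconnected (hN x hx).2
      (fun s hs => ((hψ x hx).2 s hs).2.2) (mem_ball_self hr)
      ((hN x hx).1.trans (hψ x hx).1.symm)
  refine ⟨(hN x0 n2).1, fun s hs => ⟨?_, ((hN x0 n2).2 s hs).2, ((hN x0 n2).2 s hs).1⟩⟩
  refine ((hψ x0 n2).2 s hs).1.congr_of_eventuallyEq ?_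
  filter_upwards [(n1.prod isOpen_ball).mem_nhds (mk_mem_prod n2 hs)] with p hp
  exact he p.1 hp.1 p.2 hp.2

end

end Vale.Agent.P290
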