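import Vale.Agent.P290.Defs
import Vale.Agent.P278.FrobODE

/-!
P290 FlowL. Helper lemma names start with flowl_.
flow_loc: shrink W to an open set on which V is differentiable. Use P278.fode_flow with σ y b = b 0 • V y (σ y = smulRight (proj 0) (V y);
real structure: see the proof of P278.frob_ode for the instances). ψ (y, s) = Γ (y, (s / τ) • e0) τ. fode_lin: complex differentiable in
(y, b) on the ball, so analytic (P278.osgood); fode_sym gives the s-derivative; at b = 0 the curve is constant (fode_const).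
ode_uniq: V is Lipschitz (constant L) on a ball around y; on a small disc of radius r with r L < 1 let d = u - v and m = sup ‖d‖;
‖d'‖ ≤ L m, so m ≤ r L m by `Convex.norm_image_sub_le_of_norm_hasDerivWithin_le`.
-/

namespace Vale.Agent.P290

open scoped Manifold ContDiff Topology LinearAlgebra.Projectivization
open Set Filter Metric Function

noncomputable section

/-- The field as a family of linear maps. -/
def flowl_sig (V : C2 → C2) (y : C2) : C2 →L[ℂ] C2 :=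
  ContinuousLinearMap.smulRightL ℂ C2 C2 (ContinuousLinearMap.proj 0) (V y)

theorem flowl_apply (V : C2 → C2) (y b : C2) : flowl_sig V y b = b 0 • V y := rfl

theorem flowl_fderiv {V : C2 → C2} {y : C2} (h : DifferentiableAt ℂ V y) (u c : C2) :
    fderiv ℂ (flowl_sig V) y u c = c 0 • fderiv ℂ V y u := by
  have := ((ContinuousLinearMap.smulRightL ℂ C2 C2
    (ContinuousLinearMap.proj 0)).hasFDerivAt.comp y h.hasFDerivAt).fderiv
  rw [show flowl_sig V = _ ∘ V from rfl, this]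
  rfl

theorem flow_loc {V : C2 → C2} {y0 : C2} (hV : AnalyticAt ℂ V y0) {W : Set C2} (hW : W ∈ 𝓝 y0) :
    ∃ r : ℝ, 0 < r ∧ ∃ ψ : C2 × ℂ → C2, ∀ y ∈ ball y0 r, ψ (y, 0) = y ∧ ∀ s ∈ ball (0 : ℂ) r,
      AnalyticAt ℂ ψ (y, s) ∧ ψ (y, s) ∈ W ∧
        HasDerivAt (fun t => ψ (y, t)) (V (ψ (y, s))) s := by
  obtain ⟨U, hUW, hU, hy0⟩ := _root_.mem_nhds_iff.1 (inter_mem hW hV.eventually_analyticAt)
  have hd : ∀ y ∈ U, DifferentiableAt ℂ V y := fun y hy => (hUW hy).2.differentiableAt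
  have hσ : DifferentiableOn ℂ (flowl_sig V) U := fun y hy =>
    ((ContinuousLinearMap.smulRightL ℂ C2 C2
      (ContinuousLinearMap.proj 0)).differentiableAt.comp y (hd y hy)).differentiableWithinAt
  have hsym : ∀ y ∈ U, ∀ b c, fderiv ℂ (flowl_sig V) y (flowl_sig V y b) c =
      fderiv ℂ (flowl_sig V) y (flowl_sig V y c) b := fun y hy b c => by
    rw [flowl_fderiv (hd y hy), flowl_fderiv (hd y hy), flowl_apply, flowl_apply, map_smul,
      map_smul, smul_comm]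
  obtain ⟨τ, hτ, r, hr, Γ, X, h⟩ := P278.fode_flow hU hy0 hσ
  have hτ' : (τ : ℂ) ≠ 0 := Complex.ofReal_ne_zero.2 hτ.ne'
  let j : C2 × ℂ →L[ℂ] C2 × C2 := (ContinuousLinearMap.fst ℂ C2 ℂ).prod
    ((ContinuousLinearMap.snd ℂ C2 ℂ).smulRight ((τ : ℂ)⁻¹ • e0))
  have hL : ∀ z ∈ ball ((y0, 0) : C2 × C2) r, ∃ L : C2 × C2 →L[ℂ] C2,
      HasFDerivAt (fun z' => Γ z' τ) L z ∧
        ∀ c, L (0, c) = (τ : ℂ) • flowl_sig V (Γ z τ) c := fun z hz => by
    obtain ⟨-, h1, h2, h3⟩ := h z hz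
    obtain ⟨L, hL⟩ := P278.fode_lin hU hσ hτ.le h1 h3
    refine ⟨L, hasFDerivAt_of_restrictScalars ℝ h2 hL, fun c => ?_⟩
    rw [← P278.fode_sym hU hσ hsym hτ.le h1 h3 c, ← hL]
    rfl
  have han : AnalyticOnNhd ℂ (fun z' => Γ z' τ) (ball ((y0, 0) : C2 × C2) r) :=
    P278.osgood isOpen_ball fun z hz => (hL z hz).choose_spec.1.differentiableAt.differentiableWithinAt
  have hj : j ⁻¹' ball ((y0, 0) : C2 × C2) r ∈ 𝓝 ((y0, 0) : C2 × ℂ) :=
    j.continuous.continuousAt.preimage_mem_nhds (by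
      rw [show j (y0, 0) = (y0, 0) by simp [j]]
      exact ball_mem_nhds _ hr)
  obtain ⟨ρ, hρ, hb⟩ := Metric.mem_nhds_iff.1 hj
  have hm : ∀ y ∈ ball y0 ρ, ∀ s ∈ ball (0 : ℂ) ρ, j (y, s) ∈ ball ((y0, 0) : C2 × C2) r :=
    fun y hy s hs => hb (by rw [← ball_prod_same]; exact ⟨hy, hs⟩)
  refine ⟨ρ, hρ, fun q => Γ (j q) τ, fun y hy => ⟨?_, fun s hs => ⟨?_, ?_, ?_⟩⟩⟩
  · obtain ⟨h0, -, -, h3⟩ := h _ (hm y hy 0 (mem_ball_self hρ))
    have := P278.fode_const (f := Γ (j (y, 0))) (τ := τ) (fun t ht => by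
      have := (h3 t ht).2.1
      rwa [show (j (y, 0)).2 = 0 by simp [j], map_zero] at this) τ ⟨hτ.le, le_rfl⟩
    exact this.trans h0
  · exact (han _ (hm y hy s hs)).comp (j.analyticAt _)
  · exact (hUW ((h _ (hm y hy s hs)).2.2.2 τ ⟨hτ.le, le_rfl⟩).1).1
  · obtain ⟨L, h1, h2⟩ := hL _ (hm y hy s hs)
    have h3 : HasDerivAt (fun t : ℂ => j (y, t)) ((0, (τ : ℂ)⁻¹ • e0) : C2 × C2) s := by
      have := (hasDerivAt_const s y).prodMk ((hasDerivAt_id s).smul_const ((τ : ℂ)⁻¹ • e0))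
      rw [one_smul] at this
      exact this
    have h4 := h1.comp_hasDerivAt s h3
    rw [h2, flowl_apply, smul_smul, show (τ : ℂ) * ((τ : ℂ)⁻¹ • e0) 0 = 1 by
      simp [e0, hτ'], one_smul] at h4
    exact h4

end

end Vale.Agent.P290
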