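import Vale.Agent.P290.FlowL

/-!
P290 OdeU (second part of FlowL; the plan covers both parts). Helper lemma names start with odeu_.
flow_loc: shrink W to an open set on which V is differentiable. Use P278.fode_flow with σ y b = b 0 • V y (σ y = smulRight (proj 0) (V y);
real structure: see the proof of P278.frob_ode for the instances). ψ (y, s) = Γ (y, (s / τ) • e0) τ. fode_lin: complex differentiable in
(y, b) on the ball, so analytic (P278.osgood); fode_sym gives the s-derivative; at b = 0 the curve is constant (fode_const).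
ode_uniq: V is Lipschitz (constant L) on a ball around y; on a small disc of radius r with r L < 1 let d = u - v and m = sup ‖d‖;
‖d'‖ ≤ L m, so m ≤ r L m by `Convex.norm_image_sub_le_of_norm_hasDerivWithin_le`.
-/

namespace Vale.Agent.P290

open scoped Manifold ContDiff Topology LinearAlgebra.Projectivization
open Set Filter Metric Function

noncomputable section

theorem ode_uniq {V : C2 → C2} {u v : ℂ → C2} {s : ℂ} (hV : AnalyticAt ℂ V (u s))
    (hu : ∀ᶠ t in 𝓝 s, HasDerivAt u (V (u t)) t) (hv : ∀ᶠ t in 𝓝 s, HasDerivAt v (V (v t)) t)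
    (h : u s = v s) : u =ᶠ[𝓝 s] v := by
  obtain ⟨K, T, hT, hK⟩ := (hV.contDiffAt (n := 1)).exists_lipschitzOnWith
  have h1 : ∀ᶠ t in 𝓝 s, u t ∈ T := hu.self_of_nhds.continuousAt hT
  have h2 : ∀ᶠ t in 𝓝 s, v t ∈ T := hv.self_of_nhds.continuousAt (h ▸ hT)
  have h3 : ∀ᶠ r in 𝓝[>] (0 : ℝ), (K : ℝ) * r < 1 := eventually_nhdsWithin_of_eventually_nhds
    ((continuous_const.mul continuous_id).continuousAt.eventually_lt continuousAt_const (by simp))
  obtain ⟨r, ⟨k1, k2⟩, r0⟩ := (((eventually_closedBall_subset ((hu.and hv).and (h1.and h2))).filter_mono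
    nhdsWithin_le_nhds).and h3 |>.and self_mem_nhdsWithin).exists
  have hd : ∀ t ∈ closedBall s r, HasDerivWithinAt (fun t => u t - v t) (V (u t) - V (v t))
      (closedBall s r) t := fun t ht => ((k1 ht).1.1.sub (k1 ht).1.2).hasDerivWithinAt
  obtain ⟨a, ha, hm⟩ := (isCompact_closedBall s r).exists_isMaxOn (nonempty_closedBall.2 (le_of_lt r0))
    (f := fun t => ‖u t - v t‖) fun t ht => (hd t ht).continuousWithinAt.norm
  have k3 := (convex_closedBall s r).norm_image_sub_le_of_norm_hasDerivWithin_le hd
    (C := K * ‖u a - v a‖) (fun t ht => ((hK.norm_sub_le (k1 ht).2.1 (k1 ht).2.2).trans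
      (mul_le_mul_of_nonneg_left (hm ht) K.2))) (mem_closedBall_self (le_of_lt r0)) ha
  rw [h, sub_self, sub_zero] at k3
  have k4 := k3.trans (mul_le_mul_of_nonneg_left (mem_closedBall_iff_norm.1 ha) (by positivity))
  filter_upwards [closedBall_mem_nhds s r0] with t ht
  exact sub_eq_zero.1 (norm_le_zero_iff.1 ((hm ht).trans (by nlinarith [norm_nonneg (u a - v a)])))

end

end Vale.Agent.P290
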