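import Vale.Agent.P290.TwMain

/-! P290 TwB: the Oka property passes to twists. -/

namespace Vale.Agent.P290

open scoped Manifold ContDiff Topology LinearAlgebra.Projectivization
open Set Filter Metric Function

variable {X X' : Type*} [MetricSpace X] [ChartedSpace C2 X] [IsManifold 𝓘(ℂ, C2) ω X]
  [MetricSpace X'] [ChartedSpace C2 X'] [IsManifold 𝓘(ℂ, C2) ω X']

theorem appr_of_oka (h : Oka X) {m : ℕ} {K : Set (Cn (Fin m))} (Q : Set (Cn (Fin m)))
    (hK : IsCompact K) (hc : Convex ℝ K) {f : Cn (Fin m) → X} (hf : HolOn f K) : Appr K Q f := by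
  intro ε hε
  rcases K.eq_empty_or_nonempty with rfl | hne
  · exact ⟨fun _ => f 0, fun _ _ => contMDiffAt_const, fun _ h => h.elim⟩
  have hU : IsOpen {z | Hol (Cn (Fin m)) C2 f z} := isOpen_iff_mem_nhds.2 fun z hz =>
    (contMDiffAt_iff_contMDiffAt_nhds (by simp)).1 hz
  obtain ⟨F, hF, h1⟩ := h m K _ hne hK hc hU hf f (fun z hz =>
    (ContMDiffAt.mdifferentiableAt hz (by simp)).mdifferentiableWithinAt) ε hε
  exact ⟨F, fun z _ => bridge (Eventually.of_forall hF), h1⟩

theorem oka_of_twist [CompactSpace X] [CompactSpace X'] (σ : TwoForm X) {π : X → P1}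
    {π' : X' → P1} {c : ℂ} (hπ : HolP π) (hπ' : HolP π') (W : Twist σ π π' c) (h : Oka X) :
    Oka X' :=
  oka_of_appr fun _ _ Q hK hc hQ hcQ hKQ _ hf =>
    appr_twist hπ hπ' (exists_fl σ hπ).some W hK hc hQ hcQ hKQ
      (fun _ hg => appr_of_oka h Q hK hc hg) hf

end Vale.Agent.P290
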