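import Vale.Agent.P290.ST
import Vale.Agent.P290.TwB

/-! P290 SB: from the compact definitions to the working ones. -/

namespace Vale.Agent.P290

open scoped Manifold ContDiff Topology LinearAlgebra.Projectivization
open Set Filter

noncomputable section

section

variable {X X' : Type*} [TopologicalSpace X] [ChartedSpace C2 X] [TopologicalSpace X']
  [ChartedSpace C2 X']

/-- The bilinear map of a form. -/
def sbL (σ : S.TwoForm X) (x : X) : C2 →ₗ[ℂ] C2 →ₗ[ℂ] ℂ :=
  LinearMap.mk₂ ℂ (σ.σ x)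
    (fun a b w => by
      rw [σ.skew x (a + b) w, (σ.lin x w).map_add, σ.skew x a w, σ.skew x b w]; ring)
    (fun c a w => by
      rw [σ.skew x (c • a) w, (σ.lin x w).map_smul, σ.skew x a w]; simp)
    (fun v a b => (σ.lin x v).map_add a b) (fun c v a => (σ.lin x v).map_smul c a)

/-- The continuous bilinear map of a form. -/
def sbC (σ : S.TwoForm X) (x : X) : C2 →L[ℂ] C2 →L[ℂ] ℂ :=
  LinearMap.toContinuousLinearMap
    ((LinearMap.toContinuousLinearMap (𝕜 := ℂ) (E := C2) (F' := ℂ)).toLinearMap ∘ₗ sbL σ x)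

theorem sbC_apply (σ : S.TwoForm X) (x : X) (v w : C2) : sbC σ x v w = σ.σ x v w := rfl

/-- The working form. -/
def sbF (σ : S.TwoForm X) : TwoForm X where
  σ := sbC σ
  alt x v := by
    rw [sbC_apply]
    have := σ.skew x v v
    linear_combination this / 2
  ne x h := by
    obtain ⟨v, w, hv⟩ := σ.ne x
    exact hv (by rw [← sbC_apply, h]; rfl)
  hol φ hφ v w := σ.hol φ hφ v w

theorem sb_flows {σ : S.TwoForm X} {π : X → P1} {c : ℂ} {x y : X} (h : S.Flows σ π c x y) :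
    Flows (sbF σ) π c x y := by
  obtain ⟨γ, h0, h1, h⟩ := h
  refine ⟨γ, fun s => S.dv ℂ C2 γ s 1, h0, h1, fun s => ⟨(h s).1, ?_, ?_⟩⟩
  · have h2 : HasMFDerivAt 𝓘(ℂ, ℂ) 𝓘(ℂ, C2) γ s (S.md ℂ C2 γ s) :=
      MDifferentiableAt.hasMFDerivAt (h s).2.1
    have h3 : S.md ℂ C2 γ s = (1 : ℂ →L[ℂ] ℂ).smulRight (S.dv ℂ C2 γ s 1) := by
      ext i
      simp [S.dv]
    rw [← h3]
    exact h2
  · intro a ha w u hu
    have := (h s).2.2 a ha w
    subst hu
    exact this

/-- The working twist. -/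
def sbT {σ : S.TwoForm X} {π : X → P1} {π' : X' → P1} {c : ℂ} (W : S.Twist σ π π' c) :
    Twist (sbF σ) π π' c where
  ψ := W.ψ
  χ := W.χ
  hψ := W.hψ
  hχ := W.hχ
  flow x h0 h1 := sb_flows (W.flow x h0 h1)

end

theorem sb_oka {X : Type*} [MetricSpace X] [ChartedSpace C2 X] : S.Oka X ↔ Oka X := by
  refine forall_congr' fun m => forall_congr' fun K => forall_congr' fun U => forall_congr' fun _ =>
    forall_congr' fun _ => forall_congr' fun _ => forall_congr' fun hU => forall_congr' fun _ =>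
    forall_congr' fun f => ?_
  refine imp_congr ⟨fun h z hz => MDifferentiableAt.mdifferentiableWithinAt (h z hz),
    fun h z hz => (h z hz).mdifferentiableAt (hU.mem_nhds hz)⟩ Iff.rfl

variable {X X' : Type*} [MetricSpace X] [CompactSpace X] [ChartedSpace C2 X]
  [IsManifold 𝓘(ℂ, C2) ω X] [MetricSpace X'] [CompactSpace X'] [ChartedSpace C2 X']
  [IsManifold 𝓘(ℂ, C2) ω X']

theorem sb_fin (σ : S.TwoForm X) {k : ℕ} {π : Fin k → X → P1} (hπ : ∀ j, S.HolP (π j))
    (hfin : ∀ x, {y | ∀ j, π j y = π j x}.Finite) (hreg : ∀ x, ∃ j, S.RegP (π j) x) : S.Oka X :=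
  sb_oka.2 (oka (sbF σ) hπ hfin hreg)

theorem sb_twist (σ : S.TwoForm X) {π : X → P1} {π' : X' → P1} {c : ℂ} (hπ : S.HolP π)
    (hπ' : S.HolP π') (W : S.Twist σ π π' c) (h : S.Oka X) : S.Oka X' :=
  sb_oka.2 (oka_of_twist (sbF σ) hπ hπ' (sbT W) (sb_oka.1 h))

end

end Vale.Agent.P290
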