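import Vale.Agent.P290.SC
import Vale.Agent.P290.SB
import Vale.Agent.P290.CjC

/-! P290 SD: the pointwise criterion in the compact definitions. -/

namespace Vale.Agent.P290

open scoped Manifold ContDiff

theorem sd_all {X : Type*} [MetricSpace X] [CompactSpace X] [ChartedSpace C2 X]
    [IsManifold 𝓘(ℂ, C2) ω X] (σ : S.TwoForm X) (h : ∀ x : X, S.Good x ∨ S.TwGood x) :
    S.Oka X := by
  refine sb_oka.2 (oka_of_appr fun _ _ _ hK hc hQ hcQ hKQ _ hf =>
    appr_dom (sbF σ) hK hc (fun g hg z hz => ?_) hf)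
  rcases h (g z) with h | ⟨Y, _, _, _, _, τ, p, π, c, W, i, hp, hπ, hi, h⟩
  · exact dom_good (sbF σ) hK hc hQ hcQ hKQ hg hz h
  · exact dom_tw hp hπ (sbT W) hK hc hQ hcQ hKQ hg hz hi h

end Vale.Agent.P290
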