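import Vale.Agent.P290.SE
import Vale.Agent.P290.SD

/-! P290 SF: two independent pencils and Zariski dense orbits give the Oka property. -/

namespace Vale.Agent.P290

open scoped Manifold ContDiff Topology LinearAlgebra.Projectivization
open Set Filter Metric Function

noncomputable section

variable {X : Type*} [MetricSpace X] [ChartedSpace C2 X] [IsManifold 𝓘(ℂ, C2) ω X]

theorem sf_cov {σ : TwoForm X} {π ρ : X → P1} (F : Fl σ π) (G : Fl σ ρ) {a b : X → C2} {x : X}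
    (ha : IsLift π a x) (hb : IsLift ρ b x) (v w : C2) :
    S.cov a x v * S.cov b x w - S.cov a x w * S.cov b x v =
      σ.σ x e0 e1 ^ 2 * det2 (F.V x (a x)) (G.V x (b x)) * det2 v w := by
  have h1 : ∀ u, S.cov a x u = σ.σ x e0 e1 * det2 (F.V x (a x)) u := fun u => by
    rw [← sig_eq, F.form ha u]
    rfl
  have h2 : ∀ u, S.cov b x u = σ.σ x e0 e1 * det2 (G.V x (b x)) u := fun u => by
    rw [← sig_eq, G.form hb u]
    rfl
  rw [h1, h1, h2, h2]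
  simp only [det2]
  ring

theorem sf_det {σ : TwoForm X} {π ρ : X → P1} (hπ : HolP π) (hρ : HolP ρ) (F : Fl σ π)
    (G : Fl σ ρ) {x : X} (h : S.Indep π ρ x) {e e' : C2} (he : On (π x) e) (he' : On (ρ x) e') :
    det2 (F.V x e) (G.V x e') ≠ 0 := by
  obtain ⟨a, b, ha, hb, v, w, h⟩ := h
  have h1 := sub_ne_zero.2 h
  rw [sf_cov F G ha hb] at h1
  have h2 := right_ne_zero_of_mul (left_ne_zero_of_mul h1)
  obtain ⟨c, hc, rfl⟩ := he.exists_smul (acc_on ha)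
  obtain ⟨d, hd, rfl⟩ := he'.exists_smul (acc_on hb)
  rw [F.V_smul hπ (acc_on ha) hc, G.V_smul hρ (acc_on hb) hd]
  have e : det2 (c ^ 2 • F.V x (a x)) (d ^ 2 • G.V x (b x)) =
      c ^ 2 * d ^ 2 * det2 (F.V x (a x)) (G.V x (b x)) := by
    simp only [det2, Pi.smul_apply, smul_eq_mul]
    ring
  rw [e]
  exact mul_ne_zero (mul_ne_zero (pow_ne_zero _ hc) (pow_ne_zero _ hd)) h2

theorem dom_indep [CompactSpace X] (σ : TwoForm X) {π ρ : X → P1} (hπ : HolP π) (hρ : HolP ρ)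
    {ι : Type} [Fintype ι] {K Q : Set (Cn ι)} (hK : IsCompact K) (hc : Convex ℝ K)
    (hQ : IsCompact Q) (hcQ : Convex ℝ Q) (hKQ : K ⊆ Q) {f : Cn ι → X} (hf : HolOn f K)
    {z0 : Cn ι} (hz : z0 ∈ K) (h : S.Indep π ρ (f z0)) : DomAt K Q f z0 := by
  have F : Fl σ π := (exists_fl σ hπ).some
  have G : Fl σ ρ := (exists_fl σ hρ).some
  obtain ⟨a, ha⟩ := lift_comp hπ hK hc hf
  obtain ⟨b, hb⟩ := lift_comp hρ hK hc hf
  have ha1 : ∀ z ∈ K, On (π (f z)) (a z) := fun z hz => ha.2.self_of_nhdsSet z hz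
  have hb1 : ∀ z ∈ K, On (ρ (f z)) (b z) := fun z hz => hb.2.self_of_nhdsSet z hz
  obtain ⟨Ma, hMa, hMa'⟩ := basic hπ F hK hc hQ hcQ hKQ hf ha 0
  obtain ⟨Mb, hMb, hMb'⟩ := basic hρ G hK hc hQ hcQ hKQ hf hb 0
  have hMa2 : Tr K Q f f Ma := hMa.congr fun z hz => F.zero (ha1 z hz)
  have hMb2 : Tr K Q f f Mb := hMb.congr fun z hz => G.zero (hb1 z hz)
  obtain ⟨M1, hM1, hM1'⟩ := Tr.comp hK hf hMa2 hMb2
  refine ⟨_, inferInstance, inferInstance, inferInstance, M1, hM1, ?_⟩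
  have hu : F.V (f z0) (a z0) ∈ Rg f M1 z0 := by
    have h1 := (hM1' z0 hz).2 _ (hMa' z0 hz).1
    rwa [(hMb' z0 hz).2 rfl, F.zero (ha1 z0 hz)] at h1
  have hv : G.V (f z0) (b z0) ∈ Rg f M1 z0 := by
    have h1 := (hMb' z0 hz).1
    rw [G.zero (hb1 z0 hz)] at h1
    exact (hM1' z0 hz).1 h1
  exact dom_span hu hv (sf_det hπ hρ F G h (ha1 z0 hz) (hb1 z0 hz))

theorem sf_lift {π : X → P1} {a : X → C2} {g : X ≃ X} (hg : S.Biholo g) {x : X}
    (ha : IsLift π a (g x)) : IsLift (π ∘ g) (a ∘ g) x :=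
  ((MDifferentiableAt.continuousAt (hg x).1).eventually ha).mono fun y hy =>
    ⟨MDifferentiableAt.comp y hy.1 (hg y).1, hy.2⟩

theorem sf_comp {π ρ : X → P1} {g : X ≃ X} (hg : S.Biholo g) {x : X} (h : S.Indep π ρ (g x)) :
    S.Indep (π ∘ g) (ρ ∘ g) x := by
  obtain ⟨a, b, ha, hb, v, w, h⟩ := h
  have g1 : Hol C2 C2 g x := bridge (Eventually.of_forall fun y => (hg y).1)
  have g2 : Hol C2 C2 g.symm (g x) := bridge (Eventually.of_forall fun y => (hg y).2)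
  have g3 : ∀ u, md C2 C2 g x (md C2 C2 g.symm (g x) u) = u := fun u => by
    rw [← comp_md g1 g2 (g.symm_apply_apply x) u]
    simp only [Equiv.apply_symm_apply]
    exact DFunLike.congr_fun (mfderiv_id (I := 𝓘(ℂ, C2)) (x := g x)) u
  have e : ∀ {p : X → P1} {c : X → C2}, IsLift p c (g x) → ∀ u,
      S.cov (c ∘ g) x (md C2 C2 g.symm (g x) u) = S.cov c (g x) u := fun {p c} hc u => by
    have e1 : S.dv C2 C2 (c ∘ g) x (md C2 C2 g.symm (g x) u) = S.dv C2 C2 c (g x) u :=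
      (comp_md hc.hol g1 rfl _).trans (congrArg _ (g3 u))
    simp only [S.cov, e1, comp_apply]
  refine ⟨a ∘ g, b ∘ g, sf_lift hg ha, sf_lift hg hb, md C2 C2 g.symm (g x) v,
    md C2 C2 g.symm (g x) w, ?_⟩
  rwa [e ha, e ha, e hb, e hb]

theorem sf_an {a : X → C2} {x : X} (ha : Hol C2 C2 a x) (u : C2) :
    Hol C2 ℂ (fun y => S.cov a y (md C2 C2 (chartAt C2 x).symm (chartAt C2 x y) u)) x := by
  have hφ := chart_mem_atlas C2 x
  have hx := mem_chart_source C2 x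
  have h1 := (fun_chart hφ hx ha).1
  have h2 : AnalyticAt ℂ (fun p => fderiv ℂ (a ∘ (chartAt C2 x).symm) p u) (chartAt C2 x x) :=
    ((ContinuousLinearMap.apply ℂ C2 u).analyticAt _).comp h1.fderiv
  have h3 := analyticAt_pi_iff.1 h1
  have h4 := analyticAt_pi_iff.1 h2
  have h5 : Hol C2 ℂ (fun p => (a ∘ (chartAt C2 x).symm) p 0 *
      fderiv ℂ (a ∘ (chartAt C2 x).symm) p u 1 - (a ∘ (chartAt C2 x).symm) p 1 *
        fderiv ℂ (a ∘ (chartAt C2 x).symm) p u 0) (chartAt C2 x x) :=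
    hol_iff.2 (((h3 0).fun_mul (h4 1)).fun_sub ((h3 1).fun_mul (h4 0)))
  refine (ContMDiffAt.comp x h5 (chart_hol hφ hx)).congr_of_eventuallyEq ?_
  filter_upwards [(chartAt C2 x).open_source.mem_nhds hx,
    (contMDiffAt_iff_contMDiffAt_nhds (by simp)).1 ha] with y hy hy'
  have e1 : S.dv C2 C2 a y (md C2 C2 (chartAt C2 x).symm (chartAt C2 x y) u) =
      fderiv ℂ (a ∘ (chartAt C2 x).symm) (chartAt C2 x y) u :=
    ((fun_chart hφ hy hy').2 _).trans (congrArg _ (md_md_symm hφ hy u))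
  simp only [S.cov, e1, comp_apply, (chartAt C2 x).left_inv hy]

theorem sf_analytic [CompactSpace X] (σ : TwoForm X) {π ρ : X → P1} (hπ : HolP π)
    (hρ : HolP ρ) : S.Analytic {y | ¬S.Indep π ρ y} := by
  have F : Fl σ π := (exists_fl σ hπ).some
  have G : Fl σ ρ := (exists_fl σ hρ).some
  intro x
  obtain ⟨a, ha⟩ := hπ x
  obtain ⟨b, hb⟩ := hρ x
  have hφ := chart_mem_atlas C2 x
  set L : X → C2 →L[ℂ] C2 := fun y => md C2 C2 (chartAt C2 x).symm (chartAt C2 x y) with hL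
  have h1 : Hol C2 ℂ (fun y => S.cov a y (L y e0) * S.cov b y (L y e1) -
      S.cov a y (L y e1) * S.cov b y (L y e0)) x :=
    ContMDiffAt.sub (ContMDiffAt.mul (sf_an ha.hol e0) (sf_an hb.hol e1))
      (ContMDiffAt.mul (sf_an ha.hol e1) (sf_an hb.hol e0))
  refine ⟨1, fun _ y => S.cov a y (L y e0) * S.cov b y (L y e1) -
    S.cov a y (L y e1) * S.cov b y (L y e0), ?_⟩
  filter_upwards [(contMDiffAt_iff_contMDiffAt_nhds (by simp)).1 h1, ha.ev, hb.ev,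
    (chartAt C2 x).open_source.mem_nhds (mem_chart_source C2 x)] with y h2 h3 h4 hy
  refine ⟨fun _ => ContMDiffAt.mdifferentiableAt h2 (by simp), fun h _ => ?_, fun h hI => ?_⟩
  · by_contra h5
    exact h ⟨a, b, h3, h4, _, _, sub_ne_zero.1 h5⟩
  · have h5 := h 0
    rw [sf_cov F G h3 h4] at h5
    have h6 := (sig_chart σ hφ hy).2 (L y e0) (L y e1)
    rw [md_md_symm hφ hy, md_md_symm hφ hy, sig_eq] at h6
    have h7 : det2 e0 e1 = 1 := by simp [det2, e0, e1]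
    have h8 : det2 (L y e0) (L y e1) ≠ 0 := fun h0 => by
      rw [h0, h7, mul_zero, mul_one] at h6
      exact (sig_chart σ hφ hy).1 h6.symm
    exact mul_ne_zero (mul_ne_zero (pow_ne_zero _ (sig_ne σ y))
      (sf_det hπ hρ F G hI (acc_on h3) (acc_on h4))) h8 h5

theorem sf_aut [CompactSpace X] (σ : S.TwoForm X) {π ρ : X → P1} (hπ : S.HolP π)
    (hρ : S.HolP ρ) (hI : ∃ x, S.Indep π ρ x)
    (h : ∀ Z : Set X, S.Analytic Z → Z ≠ univ → ∀ x, ∃ g : X ≃ X, S.Biholo g ∧ g x ∉ Z) :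
    S.Oka X := by
  refine sb_oka.2 (oka_of_appr fun _ _ _ hK hc hQ hcQ hKQ _ hf =>
    appr_dom (sbF σ) hK hc (fun f hf z hz => ?_) hf)
  obtain ⟨x, hx⟩ := hI
  obtain ⟨g, hg, h1⟩ := h _ (sf_analytic (sbF σ) hπ hρ)
    (fun e => (e ▸ mem_univ x : x ∈ {y | ¬S.Indep π ρ y}) hx) (f z)
  exact dom_indep (sbF σ) (fun y => (hπ (g y)).elim fun a ha => ⟨_, sf_lift hg ha⟩)
    (fun y => (hρ (g y)).elim fun a ha => ⟨_, sf_lift hg ha⟩) hK hc hQ hcQ hKQ hf hz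
    (sf_comp hg (not_not.1 h1))

end

end Vale.Agent.P290
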