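import Vale.Agent.P290.TwH
import Vale.Agent.P290.Lift

/-!
P290 TwA. Helper lemma names start with twa_.
Same pattern as Step.lean. a lift of π' ∘ f (lift_comp), α from exists_alpha, g z = tw (α z) (f z) is HolOn K (tw_hol).
𝒢 (z, (x, s)) = wt (α z) (Φ x (nrm π (α z) x) s) is continuous at (z, (g z, 0)) (wt_hol, nrm_hol, Fl.hol_comp with model I3) with value f z
(Fl.zero, wt_tw). unif, tube give η. G HolOn Q within η of g on K, A a lift of π ∘ G near Q, β from exists_alpha on Q, l z = α z ⬝ᵥ A z ≠ 0 on K,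
κ = c * (β 1 * α 0 - β 0 * α 1) / l analytic near K, θ entire with ‖l ^ 2 (θ - κ)‖ < η on K (runge). G' z = wt (β z) (Φ (G z) (A z) (θ z)) is HolOn Q.
On K with y = Φ (G z) (A z) (θ - κ): wt_change and Fl.add give wt α y = G' z, and y = Φ (G z) (nrm) (l ^ 2 (θ - κ)) by Fl.smul.
-/

namespace Vale.Agent.P290

open scoped Manifold ContDiff Topology LinearAlgebra.Projectivization
open Set Filter Metric Function

noncomputable section

variable {X X' : Type*} [MetricSpace X] [ChartedSpace C2 X] [IsManifold 𝓘(ℂ, C2) ω X]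
  [MetricSpace X'] [ChartedSpace C2 X'] [IsManifold 𝓘(ℂ, C2) ω X'] {σ : TwoForm X} {π : X → P1}
  {π' : X' → P1} {c : ℂ}

theorem twa_dot {p : P1} {β e : C2} (he : On p e) : β ⬝ᵥ e ≠ 0 ↔ β ⬝ᵥ p.rep ≠ 0 := by
  obtain ⟨c, hc, h⟩ := he.exists_smul (on_rep p)
  rw [h, dotProduct_smul, smul_eq_mul, mul_ne_zero_iff]
  exact and_iff_right hc

theorem twa_loc (hπ : HolP π) (hπ' : HolP π') (F : Fl σ π) (W : Twist σ π π' c) {ι : Type}
    [Fintype ι] {α : Cn ι → C2} {z : Cn ι} {x : X} (s : ℂ) (hα : AnalyticAt ℂ α z)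
    (h : α z ⬝ᵥ (π x).rep ≠ 0) :
    ContinuousAt (fun q : Cn ι × X × ℂ =>
      wt F W (α q.1) (F.Φ q.2.1 (nrm π (α q.1) q.2.1) q.2.2)) (z, x, s) ∧
      ∀ᶠ q : Cn ι × X × ℂ in 𝓝 (z, x, s), α q.1 ⬝ᵥ (π q.2.1).rep ≠ 0 := by
  have h0 : ContMDiffAt 𝓘(ℂ, Cn ι) 𝓘(ℂ, C2) ω α z := hol_iff.2 hα
  have h1 : ContMDiffAt (I3 (Cn ι) ℂ) 𝓘(ℂ, C2) ω (fun q : Cn ι × X × ℂ => α q.1) (z, x, s) :=
    ContMDiffAt.comp (z, x, s) (g := α) (f := Prod.fst) h0 contMDiffAt_fst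
  have h2 : ContMDiffAt (I3 (Cn ι) ℂ) 𝓘(ℂ, C2) ω (fun q : Cn ι × X × ℂ => q.2.1) (z, x, s) :=
    contMDiffAt_snd.fst
  have h3 : ContMDiffAt (I3 (Cn ι) ℂ) 𝓘(ℂ, ℂ) ω (fun q : Cn ι × X × ℂ => q.2.2) (z, x, s) :=
    contMDiffAt_snd.snd
  obtain ⟨h4, h5⟩ := nrm_hol hπ h1 h2 h
  have h6 := F.hol_comp h2 h4 h3 (h5.mono fun q hq => (nrm_eq (on_rep _) hq).2)
  refine ⟨(wt_hol hπ hπ' F W h1 h6 ?_).continuousAt, h5⟩
  rw [F.fib s (nrm_eq (on_rep _) h).2]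
  exact h

theorem twa_dotan {ι : Type} [Fintype ι] {K : Set (Cn ι)} {α A : Cn ι → C2}
    (hα : AnalyticOnNhd ℂ α K) (hA : AnalyticOnNhd ℂ A K) :
    AnalyticOnNhd ℂ (fun z => α z ⬝ᵥ A z) K := by
  intro z hz
  have h1 := analyticAt_pi_iff.1 (hα z hz)
  have h2 := analyticAt_pi_iff.1 (hA z hz)
  exact Finset.analyticAt_fun_sum _ fun i _ => (h1 i).mul (h2 i)

theorem appr_twist (hπ : HolP π) (hπ' : HolP π') (F : Fl σ π) (W : Twist σ π π' c) {ι : Type}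
    [Fintype ι] {K Q : Set (Cn ι)} (hK : IsCompact K) (hc : Convex ℝ K) (hQ : IsCompact Q)
    (hcQ : Convex ℝ Q) (hKQ : K ⊆ Q) (h : ∀ g : Cn ι → X, HolOn g K → Appr K Q g)
    {f : Cn ι → X'} (hf : HolOn f K) : Appr K Q f := by
  intro ε hε
  obtain ⟨a, ha⟩ := lift_comp hπ' hK hc hf
  obtain ⟨α, hα, hαa⟩ := exists_alpha hK hc ha
  have h1 : ∀ z ∈ K, α z ⬝ᵥ (π' (f z)).rep ≠ 0 := fun z hz => by
    refine (twa_dot (ha.2.self_of_nhdsSet z hz)).1 ?_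
    rw [hαa.self_of_nhdsSet z hz]
    exact one_ne_zero
  have hgK : HolOn (fun z => tw F W (α z) (f z)) K := fun z hz =>
    tw_hol hπ hπ' F W (hol_iff.2 (hα z hz)) (hf z hz) (h1 z hz)
  have h2 : ∀ z ∈ K, α z ⬝ᵥ (π (tw F W (α z) (f z))).rep ≠ 0 := fun z hz => by
    rw [(wt_tw F W (h1 z hz)).1]
    exact h1 z hz
  have hloc := fun z hz => twa_loc hπ hπ' F W 0 (hα z hz) (h2 z hz)
  have hg : ∀ z ∈ K, ContinuousAt (fun z => (tw F W (α z) (f z), (0 : ℂ))) z := fun z hz =>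
    (ContMDiffAt.continuousAt (hgK z hz)).prodMk continuousAt_const
  obtain ⟨η₁, hη₁, hu⟩ := unif hK hg (fun z hz => (hloc z hz).1) hε
  obtain ⟨η₂, hη₂, ht⟩ := tube hK hg (fun z hz => (hloc z hz).2)
  have hη : 0 < min η₁ η₂ := lt_min hη₁ hη₂
  obtain ⟨G, hG, hd⟩ := h _ hgK _ hη
  obtain ⟨A, hA⟩ := lift_comp hπ hQ hcQ hG
  obtain ⟨β, hβ, hβA⟩ := exists_alpha hQ hcQ hA
  have hAon : ∀ z ∈ Q, On (π (G z)) (A z) := fun z hz => hA.2.self_of_nhdsSet z hz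
  have hβ1 : ∀ z ∈ Q, β z ⬝ᵥ A z = 1 := fun z hz => hβA.self_of_nhdsSet z hz
  have hc0 : ∀ z ∈ K, α z ⬝ᵥ A z ≠ 0 := fun z hz => by
    refine (twa_dot (hAon z (hKQ hz))).2 (ht z hz (G z, 0) ?_)
    rw [Prod.dist_eq, dist_self]
    exact max_lt ((hd z hz).trans_le (min_le_right _ _)) hη₂
  have hl : AnalyticOnNhd ℂ (fun z => α z ⬝ᵥ A z) K := twa_dotan hα (hA.1.mono hKQ)
  obtain ⟨B, hB⟩ := hK.exists_bound_of_continuousOn (hl.fun_pow 2).continuousOn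
  have hB1 : 0 < |B| + 1 := by positivity
  obtain ⟨θ, hθ, hθd⟩ := runge hK hc
    (f := fun z => c * (β z 1 * α z 0 - β z 0 * α z 1) / (α z ⬝ᵥ A z))
    (fun z hz => by
      have b1 := analyticAt_pi_iff.1 (hα z hz)
      have b2 := analyticAt_pi_iff.1 (hβ z (hKQ hz))
      exact (analyticAt_const.fun_mul (((b2 1).fun_mul (b1 0)).fun_sub
        ((b2 0).fun_mul (b1 1)))).fun_div (hl z hz) (hc0 z hz)) (div_pos hη₁ hB1)
  refine ⟨fun z => wt F W (β z) (F.Φ (G z) (A z) (θ z)), fun z hz => ?_, fun z hz => ?_⟩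
  · refine wt_hol hπ hπ' F W (hol_iff.2 (hβ z hz)) (F.hol_comp (hG z hz) (hol_iff.2 (hA.1 z hz))
      (hol_iff.2 (hθ z (mem_univ z))) (hA.2.filter_mono (nhds_le_nhdsSet hz))) ?_
    rw [F.fib _ (hAon z hz)]
    refine (twa_dot (hAon z hz)).1 ?_
    rw [hβ1 z hz]
    exact one_ne_zero
  · have hon := hAon z (hKQ hz)
    obtain ⟨e1, e2⟩ := nrm_eq hon (hc0 z hz)
    set κ := c * (β z 1 * α z 0 - β z 0 * α z 1) / (α z ⬝ᵥ A z) with hκ
    have e3 : A z = (α z ⬝ᵥ A z) • nrm π (α z) (G z) := by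
      rw [e1, smul_inv_smul₀ (hc0 z hz)]
    have e4 : F.Φ (G z) (A z) (θ z - κ) =
        F.Φ (G z) (nrm π (α z) (G z)) ((α z ⬝ᵥ A z) ^ 2 * (θ z - κ)) := by
      rw [← F.smul _ _ e2 (hc0 z hz), ← e3]
    have e5 : dist ((α z ⬝ᵥ A z) ^ 2 * (θ z - κ)) 0 < η₁ := by
      have e7 := (lt_div_iff₀ hB1).1 (hθd z hz)
      have e8 : ‖(α z ⬝ᵥ A z) ^ 2‖ ≤ |B| + 1 := by
        linarith [hB z hz, le_abs_self B]
      rw [dist_zero_right, norm_mul, mul_comm]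
      exact (mul_le_mul_of_nonneg_left e8 (norm_nonneg _)).trans_lt e7
    have e9 := hu z hz (G z, (α z ⬝ᵥ A z) ^ 2 * (θ z - κ)) (by
      rw [Prod.dist_eq]
      exact max_lt ((hd z hz).trans_le (min_le_left _ _)) e5)
    have e10 := wt_change F W (x := F.Φ (G z) (A z) (θ z - κ))
      (by rw [F.fib _ hon]; exact hon) (hβ1 z (hKQ hz)) (hc0 z hz)
    rw [F.add _ _ hon, ← hκ, sub_add_cancel] at e10
    simp only at e9
    rw [← e4, e10, F.zero (nrm_eq (on_rep _) (h2 z hz)).2, (wt_tw F W (h1 z hz)).2] at e9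
    exact e9

end

end Vale.Agent.P290
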