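import Vale.Agent.P290.TwM

/-!
P290 TwH. Helper lemma names start with twh_.
ψ i and χ i are Hol on the open sets {rep i ≠ 0} (aff_open, bridge). e q = nrm is ContMDiffAt (nrm_hol) and On near p (nrm_eq, on_rep).
If e p 0 ≠ 0 the first branch holds near p; otherwise e p 1 ≠ 0 and tw_one / wt_one give the second formula near p. Fl.hol_comp,
`ContMDiffAt.congr_of_eventuallyEq`; scalar times: compose analytic maps on C2 × C2 with `ContMDiffAt.prodMk_space`.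
-/

namespace Vale.Agent.P290

open scoped Manifold ContDiff Topology LinearAlgebra.Projectivization
open Set Filter Metric Function

noncomputable section

variable {X X' : Type*} [MetricSpace X] [ChartedSpace C2 X] [IsManifold 𝓘(ℂ, C2) ω X]
  [MetricSpace X'] [ChartedSpace C2 X'] [IsManifold 𝓘(ℂ, C2) ω X'] {σ : TwoForm X} {π : X → P1}
  {π' : X' → P1} {c : ℂ}

variable {A G N : Type*} [NormedAddCommGroup A] [NormedSpace ℂ A] [TopologicalSpace G]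
  {I : ModelWithCorners ℂ A G} [TopologicalSpace N] [ChartedSpace G N] {p : N}

omit [ChartedSpace C2 X] [IsManifold 𝓘(ℂ, C2) ω X] [MetricSpace X] in
theorem twh_ne {α : C2} {x : X} (h : α ⬝ᵥ (π x).rep ≠ 0) (i : Fin 2) :
    nrm π α x i ≠ 0 ↔ (π x).rep i ≠ 0 := by
  unfold nrm
  rw [Pi.smul_apply, smul_eq_mul, mul_ne_zero_iff]
  exact and_iff_right (inv_ne_zero h)

theorem twh_time {α e : N → C2} (hα : ContMDiffAt I 𝓘(ℂ, C2) ω α p)
    (he : ContMDiffAt I 𝓘(ℂ, C2) ω e p) (c : ℂ) (i j : Fin 2) (h : e p j ≠ 0) :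
    ContMDiffAt I 𝓘(ℂ, ℂ) ω (fun q => c * α q i / e q j) p ∧
      ContMDiffAt I 𝓘(ℂ, ℂ) ω (fun q => -(c * α q i / e q j)) p ∧ ∀ᶠ q in 𝓝 p, e q j ≠ 0 := by
  have h1 := contMDiffAt_pi_space.1 hα i
  have h2 := contMDiffAt_pi_space.1 he j
  have h3 : ContMDiffAt I 𝓘(ℂ, ℂ) ω (fun q => c * α q i / e q j) p :=
    (contMDiffAt_const.mul h1).div₀ h2 h
  exact ⟨h3, h3.neg, h2.continuousAt.eventually_ne h⟩

theorem twh_psi (hπ' : HolP π') (W : Twist σ π π' c) (i : Fin 2) {x : X'}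
    (h : (π' x).rep i ≠ 0) : Hol C2 C2 (W.ψ i) x :=
  bridge (((aff_open hπ' i).eventually_mem h).mono fun y hy => (W.hψ i y hy).1)

theorem twh_chi (hπ : HolP π) (W : Twist σ π π' c) (i : Fin 2) {x : X}
    (h : (π x).rep i ≠ 0) : Hol C2 C2 (W.χ i) x :=
  bridge (((aff_open hπ i).eventually_mem h).mono fun y hy => (W.hχ i y hy).1)

theorem twh_or {q : P1} {e : C2} (h : On q e) (h0 : ¬ e 0 ≠ 0) : e 1 ≠ 0 := by
  intro h1
  refine h.ne (funext fun i => ?_)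
  fin_cases i
  · exact not_not.1 h0
  · exact h1

theorem tw_hol (hπ : HolP π) (hπ' : HolP π') (F : Fl σ π) (W : Twist σ π π' c) {α : N → C2}
    {g : N → X'} (hα : ContMDiffAt I 𝓘(ℂ, C2) ω α p) (hg : ContMDiffAt I 𝓘(ℂ, C2) ω g p)
    (h : α p ⬝ᵥ (π' (g p)).rep ≠ 0) :
    ContMDiffAt I 𝓘(ℂ, C2) ω (fun q => tw F W (α q) (g q)) p := by
  obtain ⟨he, hev⟩ := nrm_hol hπ' hα hg h
  have key : ∀ (i : Fin 2) (τ : N → ℂ), nrm π' (α p) (g p) i ≠ 0 →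
      (∀ᶠ q in 𝓝 p, nrm π' (α q) (g q) i ≠ 0) → ContMDiffAt I 𝓘(ℂ, ℂ) ω τ p →
      ContMDiffAt I 𝓘(ℂ, C2) ω (fun q => F.Φ (W.ψ i (g q)) (nrm π' (α q) (g q)) (τ q)) p := by
    intro i τ hi hi' hτ
    refine F.hol_comp (ContMDiffAt.comp p (twh_psi hπ' W i ((twh_ne h i).1 hi)) hg) he hτ ?_
    filter_upwards [hev, hi'] with q h1 h2
    show On (π (W.ψ i (g q))) _
    rw [(W.hψ i _ ((twh_ne h1 i).1 h2)).2.1]
    exact (nrm_eq (on_rep _) h1).2
  by_cases h0 : nrm π' (α p) (g p) 0 ≠ 0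
  · obtain ⟨t1, -, t3⟩ := twh_time hα he c 1 0 h0
    refine (key 0 _ h0 t3 t1).congr_of_eventuallyEq (t3.mono fun q hq => ?_)
    exact if_pos hq
  · have h1 := twh_or (nrm_eq (on_rep _) h).2 h0
    obtain ⟨-, t2, t3⟩ := twh_time hα he c 0 1 h1
    refine (key 1 _ h1 t3 t2).congr_of_eventuallyEq ?_
    filter_upwards [hev, t3] with q h2 h3
    exact tw_one hπ F W h2 h3

theorem wt_hol (hπ : HolP π) (hπ' : HolP π') (F : Fl σ π) (W : Twist σ π π' c) {α : N → C2}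
    {g : N → X} (hα : ContMDiffAt I 𝓘(ℂ, C2) ω α p) (hg : ContMDiffAt I 𝓘(ℂ, C2) ω g p)
    (h : α p ⬝ᵥ (π (g p)).rep ≠ 0) :
    ContMDiffAt I 𝓘(ℂ, C2) ω (fun q => wt F W (α q) (g q)) p := by
  obtain ⟨he, hev⟩ := nrm_hol hπ hα hg h
  have key : ∀ (i : Fin 2) (τ : N → ℂ), nrm π (α p) (g p) i ≠ 0 → ContMDiffAt I 𝓘(ℂ, ℂ) ω τ p →
      ContMDiffAt I 𝓘(ℂ, C2) ω (fun q => W.χ i (F.Φ (g q) (nrm π (α q) (g q)) (τ q))) p := by
    intro i τ hi hτ
    have h1 := F.hol_comp hg he hτ (hev.mono fun q hq => (nrm_eq (on_rep _) hq).2)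
    refine ContMDiffAt.comp p (twh_chi hπ W i ?_) h1
    rw [F.fib _ (nrm_eq (on_rep _) h).2]
    exact (twh_ne h i).1 hi
  by_cases h0 : nrm π (α p) (g p) 0 ≠ 0
  · obtain ⟨-, t2, t3⟩ := twh_time hα he c 1 0 h0
    refine (key 0 _ h0 t2).congr_of_eventuallyEq (t3.mono fun q hq => ?_)
    exact if_pos hq
  · have h1 := twh_or (nrm_eq (on_rep _) h).2 h0
    obtain ⟨t1, -, t3⟩ := twh_time hα he c 0 1 h1
    refine (key 1 _ h1 t1).congr_of_eventuallyEq ?_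
    filter_upwards [hev, t3] with q h2 h3
    exact wt_one hπ F W h2 h3

end

end Vale.Agent.P290
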