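import Vale.Agent.P290.TwU

/-!
P290 TwM. Helper lemma names start with twm_.
With e = nrm, α ⬝ᵥ e = 1 (nrm_eq with on_rep), On _ e, and e i ≠ 0 ↔ rep i ≠ 0. tw_one: if e 0 ≠ 0 too, ψ 1 x = Φ (ψ 0 x) e (c / (e 0 * e 1))
(flows_eq), Fl.add, and c / (e 0 e 1) - c α 0 / e 1 = c α 1 / e 0 because α 0 e 0 + α 1 e 1 = 1. wt_one: x' = χ 0 (Φ x e (-(c α 1 / e 0))) has
ψ 1 x' = Φ x e (c α 0 / e 1); apply χ 1. wt_tw: nrm π α (tw x) = nrm π' α x as π (tw x) = π' x; Fl.add, Fl.zero.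
wt_change: nrm π α x = (α ⬝ᵥ e)⁻¹ • e, nrm π β (Φ x e κ) = e; both sides take the same branch; Fl.smul, Fl.add, field_simp using β ⬝ᵥ e = 1.
-/

namespace Vale.Agent.P290

open scoped Manifold ContDiff Topology LinearAlgebra.Projectivization
open Set Filter Metric Function

noncomputable section

variable {X X' : Type*} [MetricSpace X] [ChartedSpace C2 X] [IsManifold 𝓘(ℂ, C2) ω X]
  [MetricSpace X'] [ChartedSpace C2 X'] [IsManifold 𝓘(ℂ, C2) ω X'] {σ : TwoForm X} {π : X → P1}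
  {π' : X' → P1} {c : ℂ}

theorem twm_dot (α e : C2) : α ⬝ᵥ e = α 0 * e 0 + α 1 * e 1 := by
  simp [dotProduct, Fin.sum_univ_two]

theorem twm_nrm {Y : Type*} {p : Y → P1} {α : C2} {x : Y} (h : α ⬝ᵥ (p x).rep ≠ 0) :
    On (p x) (nrm p α x) ∧ α 0 * nrm p α x 0 + α 1 * nrm p α x 1 = 1 ∧
      (∀ i, nrm p α x i ≠ 0 → (p x).rep i ≠ 0) ∧ (¬nrm p α x 0 ≠ 0 → nrm p α x 1 ≠ 0) := by
  have h2 : α 0 * nrm p α x 0 + α 1 * nrm p α x 1 = 1 := by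
    rw [← twm_dot, nrm, dotProduct_smul, smul_eq_mul, inv_mul_cancel₀ h]
  refine ⟨(nrm_eq (on_rep _) h).2, h2, fun i hi h0 => hi ?_, fun h0 h1 => ?_⟩
  · rw [nrm, Pi.smul_apply, h0, smul_zero]
  · rw [not_not.1 h0, h1] at h2
    simp at h2

theorem twm_congr {Y Y' : Type*} {p : Y → P1} {p' : Y' → P1} (α : C2) {x : Y} {x' : Y'}
    (h : p x = p' x') : nrm p α x = nrm p' α x' := by
  rw [nrm, nrm, h]

theorem tw_one (hπ : HolP π) (F : Fl σ π) (W : Twist σ π π' c) {α : C2} {x : X'}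
    (h : α ⬝ᵥ (π' x).rep ≠ 0) (h1 : nrm π' α x 1 ≠ 0) :
    tw F W α x = F.Φ (W.ψ 1 x) (nrm π' α x) (-(c * α 0 / nrm π' α x 1)) := by
  obtain ⟨a1, a2, a3, -⟩ := twm_nrm h
  unfold tw
  split_ifs with h0
  · have he : On (π (W.ψ 0 x)) (nrm π' α x) := (W.hψ 0 x (a3 0 h0)).2.1 ▸ a1
    rw [flows_eq hπ F (W.flow x (a3 0 h0) (a3 1 h1)) he h0 h1, F.add _ _ he]
    congr 1
    field_simp
    linear_combination c * a2
  · rfl

theorem wt_one (hπ : HolP π) (F : Fl σ π) (W : Twist σ π π' c) {α : C2} {x : X}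
    (h : α ⬝ᵥ (π x).rep ≠ 0) (h1 : nrm π α x 1 ≠ 0) :
    wt F W α x = W.χ 1 (F.Φ x (nrm π α x) (c * α 0 / nrm π α x 1)) := by
  obtain ⟨a1, a2, a3, -⟩ := twm_nrm h
  unfold wt
  split_ifs with h0
  · obtain ⟨y, hy⟩ : ∃ y, F.Φ x (nrm π α x) (-(c * α 1 / nrm π α x 0)) = y := ⟨_, rfl⟩
    have e1 : π y = π x := hy ▸ F.fib _ a1
    obtain ⟨-, b1, b2⟩ := W.hχ 0 y (e1 ▸ a3 0 h0)
    have r0 : (π' (W.χ 0 y)).rep 0 ≠ 0 := by rw [b1, e1]; exact a3 0 h0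
    have r1 : (π' (W.χ 0 y)).rep 1 ≠ 0 := by rw [b1, e1]; exact a3 1 h1
    have he : On (π (W.ψ 0 (W.χ 0 y))) (nrm π α x) := by rw [b2, e1]; exact a1
    have e2 := flows_eq hπ F (W.flow _ r0 r1) he h0 h1
    rw [b2, ← hy, F.add _ _ a1, hy] at e2
    have e3 : -(c * α 1 / nrm π α x 0) + c / (nrm π α x 0 * nrm π α x 1) =
        c * α 0 / nrm π α x 1 := by
      field_simp
      linear_combination (-c) * a2
    rw [hy, ← e3, ← e2, (W.hψ 1 _ r1).2.2]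
  · rfl

omit [IsManifold 𝓘(ℂ, C2) ω X] [IsManifold 𝓘(ℂ, C2) ω X'] in
theorem wt_tw (F : Fl σ π) (W : Twist σ π π' c) {α : C2} {x : X'} (h : α ⬝ᵥ (π' x).rep ≠ 0) :
    π (tw F W α x) = π' x ∧ wt F W α (tw F W α x) = x := by
  obtain ⟨a1, -, a3, a4⟩ := twm_nrm h
  by_cases h0 : nrm π' α x 0 ≠ 0
  · obtain ⟨-, b1, b2⟩ := W.hψ 0 x (a3 0 h0)
    have he : On (π (W.ψ 0 x)) (nrm π' α x) := b1 ▸ a1
    have e1 : π (tw F W α x) = π' x := by rw [tw, if_pos h0, F.fib _ he, b1]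
    refine ⟨e1, ?_⟩
    rw [wt, twm_congr α e1, if_pos h0, tw, if_pos h0, F.add _ _ he, add_neg_cancel, F.zero he, b2]
  · obtain ⟨-, b1, b2⟩ := W.hψ 1 x (a3 1 (a4 h0))
    have he : On (π (W.ψ 1 x)) (nrm π' α x) := b1 ▸ a1
    have e1 : π (tw F W α x) = π' x := by rw [tw, if_neg h0, F.fib _ he, b1]
    refine ⟨e1, ?_⟩
    rw [wt, twm_congr α e1, if_neg h0, tw, if_neg h0, F.add _ _ he, neg_add_cancel, F.zero he, b2]

omit [IsManifold 𝓘(ℂ, C2) ω X] [IsManifold 𝓘(ℂ, C2) ω X'] in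
theorem wt_change (F : Fl σ π) (W : Twist σ π π' c) {α β e : C2} {x : X} (he : On (π x) e)
    (hβ : β ⬝ᵥ e = 1) (hα : α ⬝ᵥ e ≠ 0) :
    wt F W α x = wt F W β (F.Φ x e (c * (β 1 * α 0 - β 0 * α 1) / (α ⬝ᵥ e))) := by
  have e1 := (nrm_eq he hα).1
  have he' : On (π (F.Φ x e (c * (β 1 * α 0 - β 0 * α 1) / (α ⬝ᵥ e)))) e := by
    rw [F.fib _ he]
    exact he
  have e2 := (nrm_eq he' (α := β) (by rw [hβ]; exact one_ne_zero)).1
  rw [hβ, inv_one, one_smul] at e2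
  have hi := inv_ne_zero hα
  rw [wt, wt, e1, e2, F.smul _ _ he hi, F.smul _ _ he hi, F.add _ _ he, F.add _ _ he]
  simp only [Pi.smul_apply, smul_eq_mul]
  rw [twm_dot] at hβ
  have hα' := twm_dot α e
  by_cases h0 : e 0 ≠ 0
  · rw [if_pos (mul_ne_zero hi h0), if_pos h0]
    congr 2
    field_simp
    rw [hα']
    linear_combination (c * α 1) * hβ
  · have h0' := not_not.1 h0
    have h1 : e 1 ≠ 0 := fun h1 => by simp [h0', h1] at hβ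
    rw [if_neg (by simp [h0']), if_neg h0]
    congr 2
    field_simp
    rw [hα']
    linear_combination (-(c * α 0)) * hβ

end

end Vale.Agent.P290
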