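import Vale.Agent.P290.TwA
import Vale.Agent.P290.Main

/-!
P290 TwMain. Helper lemma names start with twmain_.
Assembly.
-/

namespace Vale.Agent.P290

open scoped Manifold ContDiff Topology LinearAlgebra.Projectivization
open Set Filter Metric Function

noncomputable section

variable {X X' : Type*} [MetricSpace X] [ChartedSpace C2 X] [IsManifold 𝓘(ℂ, C2) ω X]
  [MetricSpace X'] [ChartedSpace C2 X'] [IsManifold 𝓘(ℂ, C2) ω X'] {σ : TwoForm X} {π' : X' → P1}
  {c : ℂ}

theorem oka_twist [CompactSpace X] [CompactSpace X'] {k : ℕ} {π : Fin k → X → P1}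
    (hπ : ∀ j, HolP (π j)) (hfin : ∀ x, {y | ∀ j, π j y = π j x}.Finite)
    (hreg : ∀ x, ∃ j, RegP (π j) x) {j : Fin k} (hπ' : HolP π') (W : Twist σ (π j) π' c) :
    Oka X' :=
  oka_of_appr fun _ _ _ hK hc hQ hcQ hKQ _ hf =>
    appr_twist (hπ j) hπ' (exists_fl σ (hπ j)).some W hK hc hQ hcQ hKQ
      (fun _ hg => appr_all σ hπ hfin hreg hK hc hQ hcQ hKQ hg) hf

end

end Vale.Agent.P290
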