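import Vale.Agent.P290.TwS
import Vale.Agent.P290.FlowK
import Vale.Agent.P290.Aff
import Vale.Agent.P290.Nrm

/-!
P290 TwU. Helper lemma names start with twu_.
flows_eq: O = {y | (π y).rep 0 ≠ 0}, H = κ • ham σ (aff π 0) with κ = c * e 0 / e 1 is VF on O (ham_vf, aff_hol, scalar multiple).
For y in the fibre take a lift a with a y = e (HolP.lift_at). aff_md, ham_eq, sig_inj give γ' s = H (γ s) and V y e = e 0 ^ 2 • ham σ (aff π 0) y
(Fl.form). So γ and t ↦ Φ x e (c / (e 0 * e 1) * t) (Fl.sol, Sol.scale, Fl.fib) both solve H; sol_uniq on univ.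
-/

namespace Vale.Agent.P290

open scoped Manifold ContDiff Topology LinearAlgebra.Projectivization
open Set Filter Metric Function

noncomputable section

variable {X X' : Type*} [MetricSpace X] [ChartedSpace C2 X] [IsManifold 𝓘(ℂ, C2) ω X]
  [MetricSpace X'] [ChartedSpace C2 X'] [IsManifold 𝓘(ℂ, C2) ω X'] {σ : TwoForm X} {π : X → P1}
  {π' : X' → P1} {c : ℂ}

open Classical in
/-- The biholomorphism `X' → X` over the complement of the point killed by `α`. -/
def tw (F : Fl σ π) (W : Twist σ π π' c) (α : C2) (x : X') : X :=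
  if nrm π' α x 0 ≠ 0 then F.Φ (W.ψ 0 x) (nrm π' α x) (c * α 1 / nrm π' α x 0)
  else F.Φ (W.ψ 1 x) (nrm π' α x) (-(c * α 0 / nrm π' α x 1))

open Classical in
/-- Its inverse. -/
def wt (F : Fl σ π) (W : Twist σ π π' c) (α : C2) (x : X) : X' :=
  if nrm π α x 0 ≠ 0 then W.χ 0 (F.Φ x (nrm π α x) (-(c * α 1 / nrm π α x 0)))
  else W.χ 1 (F.Φ x (nrm π α x) (c * α 0 / nrm π α x 1))

theorem twu_V (hπ : HolP π) (F : Fl σ π) {z : X} {e : C2} (he : On (π z) e) (h0 : e 0 ≠ 0) :
    F.V z e = e 0 ^ 2 • ham σ (aff π 0) z := by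
  obtain ⟨a, ha, rfl⟩ := hπ.lift_at he
  refine sig_inj σ (x := z) fun w => ?_
  rw [F.form ha w, map_smul, ContinuousLinearMap.smul_apply, ham_eq, smul_eq_mul,
    aff_md ha h0 w]

theorem twu_vf (hπ : HolP π) (κ : ℂ) :
    VF (fun z => κ • ham σ (aff π 0) z) {z | (π z).rep 0 ≠ 0} := fun φ hφ z hz hs => by
  have h := (ham_vf σ (fun z hz => aff_hol hπ 0 hz) φ hφ z hz hs).const_smul (c := κ)
  refine h.congr (Eventually.of_forall fun y => ?_)
  simp only [Pi.smul_apply, map_smul]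

theorem flows_eq (hπ : HolP π) (F : Fl σ π) {x y : X} (h : Flows σ π c x y) {e : C2}
    (he : On (π x) e) (h0 : e 0 ≠ 0) (h1 : e 1 ≠ 0) : y = F.Φ x e (c / (e 0 * e 1)) := by
  obtain ⟨γ, γ', g0, g1, hγ⟩ := h
  obtain ⟨k, -, hk⟩ := he.exists_smul (on_rep (π x))
  have hr : (π x).rep 0 ≠ 0 := fun h => h0 (by rw [hk, Pi.smul_apply, h, smul_zero])
  have key : ∀ s, γ' s = (c * e 0 / e 1) • ham σ (aff π 0) (γ s) := fun s => by
    obtain ⟨a, ha, hae⟩ := hπ.lift_at (x := γ s) (e := e) (by rw [(hγ s).1]; exact he)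
    refine sig_inj σ (x := γ s) fun w => ?_
    have k1 := (hγ s).2.2 a ha w (md C2 C2 a (γ s) w) rfl
    have k2 := aff_md ha (c := 0) (by rw [hae]; exact h0) w
    rw [hae] at k1 k2
    rw [map_smul, ContinuousLinearMap.smul_apply, ham_eq, smul_eq_mul]
    unfold det2 at k2
    rw [← k2] at k1
    field_simp
    apply mul_left_cancel₀ h0
    linear_combination k1
  have hu := sol_uniq (twu_vf (σ := σ) hπ (c * e 0 / e 1)) isOpen_univ isPreconnected_univ
    (γ1 := γ) (γ2 := fun t => F.Φ x e (c / (e 0 * e 1) * t)) (s0 := 0)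
    (fun s _ => ⟨by
      have := (hγ s).2.1
      rw [key s] at this
      exact this, by
      show (π (γ s)).rep 0 ≠ 0
      rw [(hγ s).1]
      exact hr⟩)
    (fun s _ => Sol.scale (F.sol _ he) (by
      have k := twu_V hπ F (z := F.Φ x e (c / (e 0 * e 1) * s)) (e := e)
        (by rw [F.fib _ he]; exact he) h0
      simp only [k, smul_smul]
      congr 1
      field_simp))
    (mem_univ _) (by simp only [g0, mul_zero, F.zero he]) 1 (mem_univ _)
  rw [← g1, hu, mul_one]

end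

end Vale.Agent.P290
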